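import Mathlib

/-!
# S0025, step (7) of the plan #726: the parameter choices (pure arithmetic).

`zz l = 2^l`, `ww l = 4 * 2^l`, `nn l = 56 * 2^l`, `gg l = 2^(2^l)`, `uu l = 4032 * (l+1)`.
For every large `b` there is a level `l ≥ l0` with `2^(2016*l*2^l) ≤ b < 2^(2016*(l+1)*2^(l+1))`.
-/

set_option autoImplicit false

namespace Egyptian.Params

/-- `z = 2^l`. -/
def zz (l : ℕ) : ℕ := 2 ^ l
/-- `w = 4 z`. -/
def ww (l : ℕ) : ℕ := 4 * 2 ^ l
/-- `n = 56 z = 14 w`. -/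
def nn (l : ℕ) : ℕ := 56 * 2 ^ l
/-- `g = 2^z`. -/
def gg (l : ℕ) : ℕ := 2 ^ (2 ^ l)
/-- `u = 4032 (l+1)`: a uniform exponent with `b ≤ g^u` at level `l`. -/
def uu (l : ℕ) : ℕ := 4032 * (l + 1)
/-- the threshold of level `l`. -/
def thr (l : ℕ) : ℕ := 2 ^ (2016 * l * 2 ^ l)

lemma nn_eq (l : ℕ) : nn l = 14 * ww l := by unfold nn ww; ring

lemma thr_strictMono_succ (l : ℕ) : thr l < thr (l + 1) := by
  unfold thr
  apply Nat.pow_lt_pow_right (by norm_num)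
  have h1 : 2 ^ l < 2 ^ (l + 1) := Nat.pow_lt_pow_right (by norm_num) (by omega)
  have h0 : 0 < 2 ^ l := by positivity
  nlinarith [Nat.zero_le l, h1, h0, Nat.mul_le_mul (Nat.le_succ l) (le_of_lt h1)]

lemma thr_mono : Monotone thr := monotone_nat_of_le_succ fun l => le_of_lt (thr_strictMono_succ l)

lemma le_thr (l : ℕ) : l ≤ thr l := by
  unfold thr
  rcases Nat.eq_zero_or_pos l with rfl | hl
  · simp
  · have h1 : l < 2 ^ (2016 * l * 2 ^ l) := by
      have : l ≤ 2016 * l * 2 ^ l := by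
        have h0 : 1 ≤ 2 ^ l := Nat.one_le_two_pow
        nlinarith
      exact lt_of_le_of_lt this Nat.lt_two_pow_self
    exact le_of_lt h1

/-- Every `b ≥ thr l0` lies in a unique dyadic level `l ≥ l0`. -/
theorem exists_level (l0 b : ℕ) (hb : thr l0 ≤ b) :
    ∃ l, l0 ≤ l ∧ thr l ≤ b ∧ b < thr (l + 1) := by
  classical
  have hex : ∃ m, b < thr (l0 + m + 1) := by
    refine ⟨b, ?_⟩
    have := le_thr (l0 + b + 1)
    have h2 := thr_strictMono_succ (l0 + b + 1)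
    omega
  let m := Nat.find hex
  have hm : b < thr (l0 + m + 1) := Nat.find_spec hex
  refine ⟨l0 + m, by omega, ?_, hm⟩
  by_cases hm0 : m = 0
  · simpa [hm0] using hb
  · have hmin := Nat.find_min hex (m := m - 1) (by omega)
    have : l0 + (m - 1) + 1 = l0 + m := by omega
    rw [this] at hmin
    omega

lemma nn_le (l : ℕ) : nn l ≤ 2 ^ (l + 6) := by
  unfold nn
  rw [pow_add]
  nlinarith [pow_pos (by norm_num : (0:ℕ) < 2) l]

/-- `R^2 ≤ n^(18 n) ≤ b`. -/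
theorem nn_pow_le_thr (l : ℕ) (hl : 6 ≤ l) : (nn l) ^ (18 * nn l) ≤ thr l := by
  unfold thr
  calc (nn l) ^ (18 * nn l) ≤ (2 ^ (l + 6)) ^ (18 * nn l) := Nat.pow_le_pow_left (nn_le l) _
    _ = 2 ^ ((l + 6) * (18 * nn l)) := by rw [← pow_mul]
    _ ≤ 2 ^ (2016 * l * 2 ^ l) := by
      apply Nat.pow_le_pow_right (by norm_num)
      unfold nn
      have h : (l + 6) ≤ 2 * l := by omega
      calc (l + 6) * (18 * (56 * 2 ^ l)) ≤ (2 * l) * (18 * (56 * 2 ^ l)) :=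
            Nat.mul_le_mul_right _ h
        _ = 2016 * l * 2 ^ l := by ring

/-- `b < thr (l+1)` gives `b ≤ g^u`. -/
theorem le_gg_pow (l b : ℕ) (hb : b < thr (l + 1)) : b ≤ (gg l) ^ (uu l) := by
  have : thr (l + 1) = (gg l) ^ (uu l) := by
    unfold thr gg uu
    rw [← pow_mul]
    congr 1
    rw [pow_succ]
    ring
  omega

lemma aux_exp (l : ℕ) (hl : 30 ≤ l) : 8 + (14 + 2 * l) * (32256 * (l + 1)) < 2 ^ l := by
  induction l, hl using Nat.le_induction with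
  | base => norm_num
  | succ l hl ih =>
    rw [pow_succ]
    nlinarith

/-- the condition of the rough-removal step: `2^z > 4^4 (4 u z)^(8 u)`. -/
theorem rough_cond (l : ℕ) (hl : 30 ≤ l) :
    4 ^ 4 * (4 * uu l * zz l) ^ (8 * uu l) < 2 ^ zz l := by
  have h1 : 4 * uu l * zz l ≤ 2 ^ (14 + 2 * l) := by
    unfold uu zz
    have h2 : l + 1 ≤ 2 ^ l := Nat.lt_two_pow_self
    rw [pow_add, pow_mul' 2 2 l]
    have h3 : 2 ^ l * 2 ^ l = (2 ^ l) ^ 2 := by ring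
    have h0 : 0 < 2 ^ l := by positivity
    calc 4 * (4032 * (l + 1)) * 2 ^ l ≤ 4 * (4032 * 2 ^ l) * 2 ^ l := by gcongr
      _ = 16128 * (2 ^ l) ^ 2 := by ring
      _ ≤ 2 ^ 14 * (2 ^ l) ^ 2 := by
        apply Nat.mul_le_mul_right
        norm_num
  have h4 := aux_exp l hl
  calc 4 ^ 4 * (4 * uu l * zz l) ^ (8 * uu l)
      ≤ 2 ^ 8 * (2 ^ (14 + 2 * l)) ^ (8 * uu l) := by
        apply Nat.mul_le_mul (by norm_num)
        exact Nat.pow_le_pow_left h1 _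
    _ = 2 ^ (8 + (14 + 2 * l) * (32256 * (l + 1))) := by
        rw [← pow_mul, pow_add 2 8]
        have : (14 + 2 * l) * (8 * uu l) = (14 + 2 * l) * (32256 * (l + 1)) := by
          unfold uu; ring
        rw [this]
    _ < 2 ^ zz l := Nat.pow_lt_pow_right (by norm_num) h4

/-- `G L ≤ Q`: `g^2 * 2^(15 w + 6) ≤ (2^16)^w`. -/
theorem gl_le_q (l : ℕ) (hl : 2 ≤ l) :
    (gg l) ^ 2 * 2 ^ (15 * ww l + 6) ≤ (2 ^ 16) ^ (ww l) := by
  unfold gg ww
  rw [← pow_mul, ← pow_mul, ← pow_add]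
  apply Nat.pow_le_pow_right (by norm_num)
  have : 4 ≤ 2 ^ l := by
    calc 4 = 2 ^ 2 := by norm_num
      _ ≤ 2 ^ l := Nat.pow_le_pow_right (by norm_num) hl
  nlinarith

end Egyptian.Params
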