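import Mathlib

/-!
# Finite Fourier tools for the Egyptian fraction proof (row 19, finding #726, step 2)

`ee q m = exp (2 π i m / q)`, orthogonality, the bilinear lemma and the 8-fold count lemma.
-/

set_option autoImplicit false

open scoped BigOperators Real
open Finset

namespace Crest.Agent.Lib.Egyptian

/-- The additive character `m ↦ exp (2 π i m / q)`. -/
noncomputable def ee (q : ℕ) (m : ℤ) : ℂ := Complex.exp (2 * π * Complex.I * m / q)

lemma ee_add (q : ℕ) (a b : ℤ) : ee q (a + b) = ee q a * ee q b := by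
  unfold ee
  rw [← Complex.exp_add]
  congr 1
  push_cast
  ring

lemma ee_zero (q : ℕ) : ee q 0 = 1 := by
  simp [ee]

lemma norm_ee (q : ℕ) (m : ℤ) : ‖ee q m‖ = 1 := by
  unfold ee
  have : (2 * π * Complex.I * m / q : ℂ) = ((2 * π * m / q : ℝ) : ℂ) * Complex.I := by
    push_cast
    ring
  rw [this, Complex.norm_exp_ofReal_mul_I]

lemma ee_mul_neg (q : ℕ) (m : ℤ) : ee q m * ee q (-m) = 1 := by
  rw [← ee_add]
  simp [ee_zero]

lemma conj_ee (q : ℕ) (m : ℤ) : (starRingEnd ℂ) (ee q m) = ee q (-m) := by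
  have h1 : ee q m * (starRingEnd ℂ) (ee q m) = 1 := by
    rw [Complex.mul_conj, Complex.normSq_eq_norm_sq, norm_ee]
    simp
  have h0 : ee q m ≠ 0 := by
    intro h
    have := norm_ee q m
    rw [h] at this
    simp at this
  have h2 := ee_mul_neg q m
  exact mul_left_cancel₀ h0 (h1.trans h2.symm)

lemma ee_eq_one_iff (q : ℕ) (hq : q ≠ 0) (m : ℤ) : ee q m = 1 ↔ (q : ℤ) ∣ m := by
  unfold ee
  rw [Complex.exp_eq_one_iff]
  have h2 : (2 * π * Complex.I : ℂ) ≠ 0 := by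
    simp [Real.pi_ne_zero, Complex.I_ne_zero]
  have hq' : (q : ℂ) ≠ 0 := by exact_mod_cast hq
  constructor
  · rintro ⟨n, hn⟩
    have h4 : (m : ℂ) = n * q := by
      field_simp at hn
      linear_combination hn
    refine ⟨n, ?_⟩
    have h5 : ((m : ℤ) : ℂ) = ((q * n : ℤ) : ℂ) := by
      rw [h4]
      push_cast
      ring
    exact_mod_cast h5
  · rintro ⟨k, rfl⟩
    refine ⟨k, ?_⟩
    push_cast
    field_simp

lemma ee_of_dvd (q : ℕ) (hq : q ≠ 0) {m : ℤ} (h : (q : ℤ) ∣ m) : ee q m = 1 :=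
  (ee_eq_one_iff q hq m).2 h

lemma ee_congr (q : ℕ) (hq : q ≠ 0) {a b : ℤ} (h : (q : ℤ) ∣ a - b) : ee q a = ee q b := by
  have : a = (a - b) + b := by ring
  rw [this, ee_add, ee_of_dvd q hq h, one_mul]

lemma ee_cancel (g q' : ℕ) (hg : g ≠ 0) (m : ℤ) : ee (g * q') (g * m) = ee q' m := by
  unfold ee
  congr 1
  have hg' : (g : ℂ) ≠ 0 := by exact_mod_cast hg
  push_cast
  by_cases hq : (q' : ℂ) = 0
  · simp [hq]
  · field_simp

lemma ee_pow (q : ℕ) (m : ℤ) (h : ℕ) : ee q (h * m) = ee q m ^ h := by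
  induction h with
  | zero => simp [ee_zero]
  | succ h ih =>
    have : ((h + 1 : ℕ) : ℤ) * m = (h : ℤ) * m + m := by
      push_cast
      ring
    rw [this, ee_add, ih, pow_succ]

/-- Orthogonality of additive characters. -/
lemma sum_range_ee (q : ℕ) (hq : q ≠ 0) (m : ℤ) :
    ∑ h ∈ range q, ee q ((h : ℤ) * m) = if (q : ℤ) ∣ m then (q : ℂ) else 0 := by
  split_ifs with hd
  · have : ∀ h ∈ range q, ee q ((h : ℤ) * m) = 1 := fun h _ =>
      ee_of_dvd q hq (Dvd.dvd.mul_left hd _)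
    rw [Finset.sum_congr rfl this]
    simp
  · have hne : ee q m ≠ 1 := fun h => hd ((ee_eq_one_iff q hq m).1 h)
    have : ∀ h ∈ range q, ee q ((h : ℤ) * m) = ee q m ^ h := fun h _ => ee_pow q m h
    rw [Finset.sum_congr rfl this, geom_sum_eq hne, ← ee_pow, ee_of_dvd q hq (Dvd.intro _ rfl)]
    simp

/-- Core bilinear estimate on residues. -/
lemma bilinear_core (q : ℕ) (hq : q ≠ 0) (y : ℤ) (hy : IsCoprime y (q : ℤ)) (a b : ℕ → ℝ) :
    ‖∑ u ∈ range q, ∑ v ∈ range q, ((a u * b v : ℝ) : ℂ) * ee q (y * u * v)‖ ^ 2 ≤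
      q * (∑ u ∈ range q, a u ^ 2) * (∑ v ∈ range q, b v ^ 2) := by
  classical
  set c : ℕ → ℂ := fun u => ∑ v ∈ range q, (b v : ℂ) * ee q (y * u * v) with hc
  have h1 : ∑ u ∈ range q, ∑ v ∈ range q, ((a u * b v : ℝ) : ℂ) * ee q (y * u * v) =
      ∑ u ∈ range q, (a u : ℂ) * c u := by
    refine Finset.sum_congr rfl fun u _ => ?_
    rw [hc]
    simp only [Finset.mul_sum]
    refine Finset.sum_congr rfl fun v _ => ?_
    push_cast
    ring
  -- the L² sum of c
  have h2 : ((∑ u ∈ range q, ‖c u‖ ^ 2 : ℝ) : ℂ) = (q : ℂ) * ∑ v ∈ range q, ((b v ^ 2 : ℝ) : ℂ) := by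
    have h3 : ∀ u, ((‖c u‖ ^ 2 : ℝ) : ℂ) =
        ∑ v ∈ range q, ∑ v' ∈ range q, ((b v * b v' : ℝ) : ℂ) * ee q ((u : ℤ) * (y * ((v' : ℤ) - v))) := by
      intro u
      have h4 : ((‖c u‖ ^ 2 : ℝ) : ℂ) = c u * (starRingEnd ℂ) (c u) := by
        rw [Complex.mul_conj, Complex.normSq_eq_norm_sq]
      rw [h4, hc]
      simp only [map_sum, map_mul, Complex.conj_ofReal, conj_ee, Finset.sum_mul, Finset.mul_sum]
      refine Finset.sum_congr rfl fun v _ => Finset.sum_congr rfl fun v' _ => ?_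
      have : (u : ℤ) * (y * ((v' : ℤ) - v)) = y * u * v' + -(y * u * v) := by ring
      rw [this, ee_add]
      push_cast
      ring
    push_cast
    simp only [← Complex.ofReal_pow]
    rw [Finset.sum_congr rfl (fun u _ => h3 u)]
    rw [Finset.sum_comm]
    simp only [Finset.mul_sum]
    refine Finset.sum_congr rfl fun v hv => ?_
    rw [Finset.sum_comm]
    have h5 : ∀ v' ∈ range q, ∑ u ∈ range q, ((b v * b v' : ℝ) : ℂ) * ee q ((u : ℤ) * (y * ((v' : ℤ) - v))) =
        if v' = v then (q : ℂ) * ((b v ^ 2 : ℝ) : ℂ) else 0 := by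
      intro v' hv'
      rw [← Finset.mul_sum, sum_range_ee q hq]
      by_cases hvv : v' = v
      · subst hvv
        simp
        ring
      · have : ¬ (q : ℤ) ∣ y * ((v' : ℤ) - v) := by
          intro hdvd
          have h6 : (q : ℤ) ∣ (v' : ℤ) - v := (hy.symm).dvd_of_dvd_mul_left hdvd
          have hv1 := Finset.mem_range.1 hv
          have hv2 := Finset.mem_range.1 hv'
          have h7 : (v' : ℤ) - v = 0 := by
            apply Int.eq_zero_of_abs_lt_dvd h6
            rw [abs_lt]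
            constructor <;> omega
          omega
        simp [this, hvv]
    rw [Finset.sum_congr rfl h5]
    simp [hv]
  have h2' : (∑ u ∈ range q, ‖c u‖ ^ 2 : ℝ) = (q : ℝ) * ∑ v ∈ range q, b v ^ 2 := by
    have : ((∑ u ∈ range q, ‖c u‖ ^ 2 : ℝ) : ℂ) = (((q : ℝ) * ∑ v ∈ range q, b v ^ 2 : ℝ) : ℂ) := by
      rw [h2]
      push_cast
      rfl
    exact_mod_cast this
  rw [h1]
  have h8 : ‖∑ u ∈ range q, (a u : ℂ) * c u‖ ≤ ∑ u ∈ range q, |a u| * ‖c u‖ := by
    refine (norm_sum_le _ _).trans (le_of_eq ?_)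
    refine Finset.sum_congr rfl fun u _ => ?_
    rw [norm_mul, Complex.norm_real, Real.norm_eq_abs]
  have h9 : (∑ u ∈ range q, |a u| * ‖c u‖) ^ 2 ≤
      (∑ u ∈ range q, |a u| ^ 2) * (∑ u ∈ range q, ‖c u‖ ^ 2) :=
    Finset.sum_mul_sq_le_sq_mul_sq _ _ _
  have h10 : (∑ u ∈ range q, |a u| ^ 2) = ∑ u ∈ range q, a u ^ 2 :=
    Finset.sum_congr rfl fun u _ => sq_abs _
  calc ‖∑ u ∈ range q, (a u : ℂ) * c u‖ ^ 2
      ≤ (∑ u ∈ range q, |a u| * ‖c u‖) ^ 2 := by gcongr
    _ ≤ (∑ u ∈ range q, |a u| ^ 2) * (∑ u ∈ range q, ‖c u‖ ^ 2) := h9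
    _ = q * (∑ u ∈ range q, a u ^ 2) * (∑ v ∈ range q, b v ^ 2) := by
        rw [h10, h2']
        ring

/-- Number of pairs in `I` whose values agree modulo `q`. -/
def collCount {ι : Type*} (I : Finset ι) (q : ℕ) (φ : ι → ℤ) : ℕ :=
  ((I ×ˢ I).filter (fun x => (q : ℤ) ∣ φ x.1 - φ x.2)).card

/-- Counting collisions via fibers of a reduction to residues. -/
lemma sum_sq_fiber_card {ι : Type*} (I : Finset ι) (q : ℕ) (φ : ι → ℤ) (r : ι → ℕ)
    (hr : ∀ i, r i ∈ range q) (hφ : ∀ i, (q : ℤ) ∣ φ i - (r i : ℤ)) :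
    ∑ u ∈ range q, (((I.filter (fun i => r i = u)).card : ℝ)) ^ 2 = (collCount I q φ : ℝ) := by
  classical
  have hiff : ∀ x : ι × ι, (q : ℤ) ∣ φ x.1 - φ x.2 ↔ r x.1 = r x.2 := by
    intro x
    constructor
    · intro h
      have h1 : (q : ℤ) ∣ (r x.1 : ℤ) - (r x.2 : ℤ) := by
        have : (r x.1 : ℤ) - (r x.2 : ℤ) = (φ x.1 - φ x.2) - (φ x.1 - r x.1) + (φ x.2 - r x.2) := by ring
        rw [this]
        exact dvd_add (dvd_sub h (hφ _)) (hφ _)
      have hr1 := Finset.mem_range.1 (hr x.1)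
      have hr2 := Finset.mem_range.1 (hr x.2)
      have h2 : (r x.1 : ℤ) - (r x.2 : ℤ) = 0 := by
        apply Int.eq_zero_of_abs_lt_dvd h1
        rw [abs_lt]
        constructor <;> omega
      omega
    · intro h
      have : φ x.1 - φ x.2 = (φ x.1 - r x.1) - (φ x.2 - r x.2) := by
        rw [h]
        ring
      rw [this]
      exact dvd_sub (hφ _) (hφ _)
  unfold collCount
  have h1 : ((I ×ˢ I).filter (fun x => (q : ℤ) ∣ φ x.1 - φ x.2)) =
      ((I ×ˢ I).filter (fun x => r x.1 = r x.2)) :=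
    Finset.filter_congr fun x _ => hiff x
  rw [h1]
  have h2 := Finset.card_eq_sum_card_fiberwise (s := (I ×ˢ I).filter (fun x => r x.1 = r x.2))
    (t := range q) (f := fun x => r x.1) (fun x _ => hr x.1)
  rw [h2]
  push_cast
  refine Finset.sum_congr rfl fun u _ => ?_
  have h3 : ((I ×ˢ I).filter (fun x => r x.1 = r x.2)).filter (fun x => r x.1 = u) =
      (I.filter (fun i => r i = u)) ×ˢ (I.filter (fun i => r i = u)) := by
    ext x
    simp only [Finset.mem_filter, Finset.mem_product]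
    constructor
    · rintro ⟨⟨⟨h1, h2⟩, h3⟩, h4⟩
      exact ⟨⟨h1, h4⟩, ⟨h2, by omega⟩⟩
    · rintro ⟨⟨h1, h2⟩, ⟨h3, h4⟩⟩
      exact ⟨⟨⟨h1, h3⟩, by omega⟩, h2⟩
  rw [h3, Finset.card_product]
  push_cast
  ring

/-- **Bilinear lemma.** -/
theorem bilinear {ι κ : Type*} (I : Finset ι) (J : Finset κ) (q : ℕ) (hq : q ≠ 0) (y : ℤ)
    (hy : IsCoprime y (q : ℤ)) (φ : ι → ℤ) (ψ : κ → ℤ) :
    ‖∑ i ∈ I, ∑ j ∈ J, ee q (y * φ i * ψ j)‖ ^ 2 ≤
      q * (collCount I q φ : ℝ) * (collCount J q ψ : ℝ) := by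
  classical
  have hqpos : 0 < q := Nat.pos_of_ne_zero hq
  -- reduce residues
  set r : ι → ℕ := fun i => (φ i % q).toNat with hr
  set s : κ → ℕ := fun j => (ψ j % q).toNat with hs
  have hqz : (0 : ℤ) < q := by exact_mod_cast hqpos
  have hr_cast : ∀ i, ((r i : ℕ) : ℤ) = φ i % q := fun i => Int.toNat_of_nonneg (Int.emod_nonneg _ hqz.ne')
  have hs_cast : ∀ j, ((s j : ℕ) : ℤ) = ψ j % q := fun j => Int.toNat_of_nonneg (Int.emod_nonneg _ hqz.ne')
  have hr_mem : ∀ i, r i ∈ range q := fun i => by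
    rw [Finset.mem_range]
    have := Int.emod_lt_of_pos (φ i) hqz
    have h' := hr_cast i
    omega
  have hs_mem : ∀ j, s j ∈ range q := fun j => by
    rw [Finset.mem_range]
    have := Int.emod_lt_of_pos (ψ j) hqz
    have h' := hs_cast j
    omega
  set a : ℕ → ℝ := fun u => ((I.filter (fun i => r i = u)).card : ℝ) with ha
  set b : ℕ → ℝ := fun v => ((J.filter (fun j => s j = v)).card : ℝ) with hb
  have hphi : ∀ i, (q : ℤ) ∣ φ i - (r i : ℤ) := fun i => by
    rw [hr_cast]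
    exact Int.dvd_self_sub_emod
  have hpsi : ∀ j, (q : ℤ) ∣ ψ j - (s j : ℤ) := fun j => by
    rw [hs_cast]
    exact Int.dvd_self_sub_emod
  have h1 : ∑ i ∈ I, ∑ j ∈ J, ee q (y * φ i * ψ j) =
      ∑ u ∈ range q, ∑ v ∈ range q, ((a u * b v : ℝ) : ℂ) * ee q (y * u * v) := by
    have h2 : ∀ i ∈ I, ∀ j ∈ J, ee q (y * φ i * ψ j) = ee q (y * (r i : ℤ) * (s j : ℤ)) := by
      intro i _ j _
      apply ee_congr q hq
      have : y * φ i * ψ j - y * (r i : ℤ) * (s j : ℤ) =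
          y * ((φ i - r i) * ψ j + (r i : ℤ) * (ψ j - s j)) := by ring
      rw [this]
      exact Dvd.dvd.mul_left (dvd_add (Dvd.dvd.mul_right (hphi i) _) (Dvd.dvd.mul_left (hpsi j) _)) _
    have h3 : ∑ i ∈ I, ∑ j ∈ J, ee q (y * φ i * ψ j) =
        ∑ i ∈ I, ∑ j ∈ J, ee q (y * (r i : ℤ) * (s j : ℤ)) :=
      Finset.sum_congr rfl fun i hi => Finset.sum_congr rfl fun j hj => h2 i hi j hj
    rw [h3]
    rw [← Finset.sum_fiberwise_of_maps_to (s := I) (t := range q) (g := r) (fun i _ => hr_mem i)]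
    refine Finset.sum_congr rfl fun u _ => ?_
    have h4 : ∀ i ∈ I.filter (fun i => r i = u),
        ∑ j ∈ J, ee q (y * (r i : ℤ) * (s j : ℤ)) =
          ∑ v ∈ range q, (b v : ℂ) * ee q (y * u * v) := by
      intro i hi
      rw [(Finset.mem_filter.1 hi).2]
      rw [← Finset.sum_fiberwise_of_maps_to (s := J) (t := range q) (g := s) (fun j _ => hs_mem j)]
      refine Finset.sum_congr rfl fun v _ => ?_
      have h5 : ∀ j ∈ J.filter (fun j => s j = v), ee q (y * (u : ℤ) * (s j : ℤ)) = ee q (y * u * v) := by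
        intro j hj
        rw [(Finset.mem_filter.1 hj).2]
      rw [Finset.sum_congr rfl h5]
      simp [hb]
    rw [Finset.sum_congr rfl h4]
    simp only [Finset.sum_const, nsmul_eq_mul]
    rw [Finset.mul_sum]
    refine Finset.sum_congr rfl fun v _ => ?_
    simp only [ha]
    push_cast
    ring
  have hA : ∑ u ∈ range q, a u ^ 2 = (collCount I q φ : ℝ) :=
    sum_sq_fiber_card I q φ r hr_mem hphi
  have hB : ∑ v ∈ range q, b v ^ 2 = (collCount J q ψ : ℝ) :=
    sum_sq_fiber_card J q ψ s hs_mem hpsi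
  rw [h1, ← hA, ← hB]
  exact bilinear_core q hq y hy a b

lemma ee_sum {α : Type*} (q : ℕ) (s : Finset α) (g : α → ℤ) :
    ee q (∑ j ∈ s, g j) = ∏ j ∈ s, ee q (g j) := by
  classical
  induction s using Finset.induction_on with
  | empty => simp [ee_zero]
  | insert a s ha ih => rw [Finset.sum_insert ha, Finset.prod_insert ha, ee_add, ih]

/-- The reduced denominator of `h / q`. -/
def redDen (q h : ℕ) : ℕ := q / Nat.gcd h q

lemma redDen_dvd (q h : ℕ) : redDen q h ∣ q := Nat.div_dvd_of_dvd (Nat.gcd_dvd_right h q)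

lemma one_lt_redDen {q h : ℕ} (h0 : h ≠ 0) (hq : h < q) : 1 < redDen q h := by
  unfold redDen
  have hg : Nat.gcd h q ∣ q := Nat.gcd_dvd_right h q
  have hgle : Nat.gcd h q ≤ h := Nat.gcd_le_left q (Nat.pos_of_ne_zero h0)
  have hgpos : 0 < Nat.gcd h q := Nat.gcd_pos_of_pos_left q (Nat.pos_of_ne_zero h0)
  obtain ⟨k, hk⟩ := hg
  have hk' : q / Nat.gcd h q = k := Nat.div_eq_of_eq_mul_right hgpos hk
  rw [hk']
  by_contra hlt
  have : k ≤ 1 := by omega
  have : q ≤ Nat.gcd h q := by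
    calc q = Nat.gcd h q * k := hk
      _ ≤ Nat.gcd h q * 1 := Nat.mul_le_mul_left _ this
      _ = _ := mul_one _
  omega

/-- Reduction of a Fourier sum to the reduced denominator. -/
lemma ee_reduce {q h : ℕ} (hq : q ≠ 0) (m : ℤ) :
    ee q ((h : ℤ) * m) = ee (redDen q h) (((h / Nat.gcd h q : ℕ) : ℤ) * m) := by
  have hqpos : 0 < q := Nat.pos_of_ne_zero hq
  have hg : 0 < Nat.gcd h q := Nat.gcd_pos_of_pos_right h hqpos
  have h1 : q = Nat.gcd h q * redDen q h := by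
    unfold redDen
    exact (Nat.mul_div_cancel' (Nat.gcd_dvd_right h q)).symm
  have h2 : (h : ℤ) = (Nat.gcd h q : ℤ) * ((h / Nat.gcd h q : ℕ) : ℤ) := by
    have := Nat.mul_div_cancel' (Nat.gcd_dvd_left h q)
    exact_mod_cast this.symm
  conv_lhs => rw [h2, mul_assoc]
  conv_lhs => rw [h1]
  have h3 := ee_cancel (Nat.gcd h q) (redDen q h) hg.ne' (((h / Nat.gcd h q : ℕ) : ℤ) * m)
  have hgg : Nat.gcd h (Nat.gcd h q * redDen q h) = Nat.gcd h q := by
    rw [← h1]
  rw [hgg]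
  exact h3

lemma coprime_reduced {q h : ℕ} (hq : q ≠ 0) :
    IsCoprime ((h / Nat.gcd h q : ℕ) : ℤ) ((redDen q h : ℕ) : ℤ) := by
  have hqpos : 0 < q := Nat.pos_of_ne_zero hq
  have hg : 0 < Nat.gcd h q := Nat.gcd_pos_of_pos_right h hqpos
  rw [Nat.isCoprime_iff_coprime]
  exact Nat.coprime_div_gcd_div_gcd hg

/-- Fibres of the reduced denominator are small. -/
lemma card_redDen_fiber_le (q q' : ℕ) (hq : q ≠ 0) (hq' : q' ∣ q) :
    (((range q).erase 0).filter (fun h => redDen q h = q')).card ≤ q' := by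
  classical
  have hqpos : 0 < q := Nat.pos_of_ne_zero hq
  have hq'pos : 0 < q' := Nat.pos_of_dvd_of_pos hq' hqpos
  -- map h to h / gcd
  have hcard : (((range q).erase 0).filter (fun h => redDen q h = q')).card ≤ (range q').card := by
    apply Finset.card_le_card_of_injOn (fun h => h / (q / q'))
    · intro h hh
      simp only [Finset.coe_filter, Finset.mem_erase, Finset.mem_range, Set.mem_ofPred_eq] at hh
      obtain ⟨⟨h0, hlt⟩, hden⟩ := hh
      have hg : Nat.gcd h q = q / q' := by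
        unfold redDen at hden
        have hgd := Nat.gcd_dvd_right h q
        have hgpos : 0 < Nat.gcd h q := Nat.gcd_pos_of_pos_right h hqpos
        rw [← hden]
        exact (Nat.div_div_self hgd hq).symm
      simp only [Finset.coe_range, Set.mem_Iio]
      have hdpos : 0 < q / q' := Nat.div_pos (Nat.le_of_dvd hqpos hq') hq'pos
      rw [Nat.div_lt_iff_lt_mul hdpos]
      calc h < q := hlt
        _ = q' * (q / q') := (Nat.mul_div_cancel' hq').symm
    · intro h1 hh1 h2 hh2 heq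
      simp only [Finset.coe_filter, Finset.mem_erase, Finset.mem_range, Set.mem_ofPred_eq] at hh1 hh2
      obtain ⟨⟨_, _⟩, hden1⟩ := hh1
      obtain ⟨⟨_, _⟩, hden2⟩ := hh2
      have hg1 : Nat.gcd h1 q = q / q' := by
        unfold redDen at hden1
        rw [← hden1]
        exact (Nat.div_div_self (Nat.gcd_dvd_right h1 q) hq).symm
      have hg2 : Nat.gcd h2 q = q / q' := by
        unfold redDen at hden2
        rw [← hden2]
        exact (Nat.div_div_self (Nat.gcd_dvd_right h2 q) hq).symm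
      have hd1 : (q / q') ∣ h1 := hg1 ▸ Nat.gcd_dvd_left h1 q
      have hd2 : (q / q') ∣ h2 := hg2 ▸ Nat.gcd_dvd_left h2 q
      simp only at heq
      calc h1 = (q / q') * (h1 / (q / q')) := (Nat.mul_div_cancel' hd1).symm
        _ = (q / q') * (h2 / (q / q')) := by rw [heq]
        _ = h2 := Nat.mul_div_cancel' hd2
  simpa using hcard

/-- **Count lemma**: small Fourier coefficients at all reduced denominators imply that every
residue class modulo `q` is an 8-fold sum of values of `f`. -/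
theorem count_lemma {ι : Type*} (U : Finset ι) (hU : U.Nonempty) (f : ι → ℤ) (q : ℕ)
    (hq : q ≠ 0) (a : ℤ) (β : ℕ → ℝ)
    (hβ : ∀ q', q' ∣ q → 1 < q' → ∀ y : ℤ, IsCoprime y (q' : ℤ) →
      ‖∑ i ∈ U, ee q' (y * f i)‖ ^ 2 ≤ (U.card : ℝ) ^ 2 * β q')
    (hsum : ∑ q' ∈ q.divisors.filter (fun d => 1 < d), (q' : ℝ) * (β q') ^ 4 < 1) :
    ∃ i : Fin 8 → ι, (∀ j, i j ∈ U) ∧ (q : ℤ) ∣ ∑ j, f (i j) - a := by
  classical
  by_contra hno
  push Not at hno
  set F : ℕ → ℂ := fun h => ∑ i ∈ U, ee q ((h : ℤ) * f i) with hF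
  have hUpos : (0 : ℝ) < U.card := by exact_mod_cast hU.card_pos
  have key : ∑ h ∈ range q, F h ^ 8 * ee q (-((h : ℤ) * a)) = 0 := by
    have h1 : ∀ h : ℕ, F h ^ 8 * ee q (-((h : ℤ) * a)) =
        ∑ p ∈ Fintype.piFinset (fun _ : Fin 8 => U), ee q ((h : ℤ) * (∑ j, f (p j) - a)) := by
      intro h
      have h2 : F h ^ 8 = ∏ _j : Fin 8, F h := by simp
      rw [h2]
      simp only [hF]
      rw [Finset.prod_univ_sum, Finset.sum_mul]
      refine Finset.sum_congr rfl fun p _ => ?_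
      rw [← ee_sum, ← ee_add]
      congr 1
      rw [mul_sub, Finset.mul_sum]
      ring
    rw [Finset.sum_congr rfl (fun h _ => h1 h), Finset.sum_comm]
    refine Finset.sum_eq_zero fun p hp => ?_
    rw [sum_range_ee q hq]
    have hpU : ∀ j, p j ∈ U := fun j => (Fintype.mem_piFinset.1 hp) j
    simp [hno p hpU]
  -- isolate h = 0
  have h0mem : 0 ∈ range q := Finset.mem_range.2 (Nat.pos_of_ne_zero hq)
  rw [← Finset.add_sum_erase _ _ h0mem] at key
  have hF0 : F 0 ^ 8 * ee q (-(((0 : ℕ) : ℤ) * a)) = ((U.card : ℂ)) ^ 8 := by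
    have : F 0 = (U.card : ℂ) := by
      simp [hF, ee_zero]
    rw [this]
    simp [ee_zero]
  rw [hF0] at key
  have hnorm : (U.card : ℝ) ^ 8 ≤ ∑ h ∈ (range q).erase 0, ‖F h‖ ^ 8 := by
    have h2 : ((U.card : ℂ)) ^ 8 = -∑ h ∈ (range q).erase 0, F h ^ 8 * ee q (-((h : ℤ) * a)) :=
      eq_neg_of_add_eq_zero_left key
    have h3 : ‖((U.card : ℂ)) ^ 8‖ = (U.card : ℝ) ^ 8 := by
      simp
    rw [← h3, h2, norm_neg]
    refine (norm_sum_le _ _).trans (le_of_eq ?_)
    refine Finset.sum_congr rfl fun h _ => ?_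
    rw [norm_mul, norm_ee, mul_one, norm_pow]
  -- bound each Fourier coefficient
  have hbd : ∀ h ∈ (range q).erase 0, ‖F h‖ ^ 8 ≤ (U.card : ℝ) ^ 8 * (β (redDen q h)) ^ 4 := by
    intro h hh
    obtain ⟨h0, hlt⟩ := Finset.mem_erase.1 hh
    have hlt' := Finset.mem_range.1 hlt
    have h1 : F h = ∑ i ∈ U, ee (redDen q h) (((h / Nat.gcd h q : ℕ) : ℤ) * f i) :=
      Finset.sum_congr rfl fun i _ => ee_reduce hq (f i)
    have h2 := hβ (redDen q h) (redDen_dvd q h) (one_lt_redDen h0 hlt') _ (coprime_reduced hq)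
    rw [← h1] at h2
    calc ‖F h‖ ^ 8 = (‖F h‖ ^ 2) ^ 4 := by ring
      _ ≤ ((U.card : ℝ) ^ 2 * β (redDen q h)) ^ 4 := by
        apply pow_le_pow_left₀ (sq_nonneg _) h2
      _ = _ := by ring
  have hsum2 : ∑ h ∈ (range q).erase 0, ‖F h‖ ^ 8 ≤
      (U.card : ℝ) ^ 8 * ∑ q' ∈ q.divisors.filter (fun d => 1 < d), (q' : ℝ) * (β q') ^ 4 := by
    refine (Finset.sum_le_sum hbd).trans ?_
    rw [← Finset.mul_sum]
    apply mul_le_mul_of_nonneg_left _ (by positivity)
    have hmaps : ∀ h ∈ (range q).erase 0,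
        redDen q h ∈ q.divisors.filter (fun d => 1 < d) := by
      intro h hh
      obtain ⟨h0, hlt⟩ := Finset.mem_erase.1 hh
      have hlt' := Finset.mem_range.1 hlt
      refine Finset.mem_filter.2 ⟨Nat.mem_divisors.2 ⟨redDen_dvd q h, hq⟩, one_lt_redDen h0 hlt'⟩
    rw [← Finset.sum_fiberwise_of_maps_to hmaps]
    refine Finset.sum_le_sum fun q' hq' => ?_
    have hq'd : q' ∣ q := Nat.dvd_of_mem_divisors (Finset.mem_filter.1 hq').1
    have h3 : ∑ h ∈ ((range q).erase 0).filter (fun h => redDen q h = q'), (β (redDen q h)) ^ 4 =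
        (((range q).erase 0).filter (fun h => redDen q h = q')).card * (β q') ^ 4 := by
      rw [Finset.sum_congr rfl (g := fun _ => (β q') ^ 4)]
      · simp
      · intro h hh
        rw [(Finset.mem_filter.1 hh).2]
    rw [h3]
    apply mul_le_mul_of_nonneg_right _ (by positivity)
    exact_mod_cast card_redDen_fiber_le q q' hq hq'd
  have hpos8 : (0 : ℝ) < (U.card : ℝ) ^ 8 := by positivity
  have : (U.card : ℝ) ^ 8 < (U.card : ℝ) ^ 8 :=
    calc (U.card : ℝ) ^ 8 ≤ _ := hnorm.trans hsum2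
      _ < (U.card : ℝ) ^ 8 * 1 := by
        exact mul_lt_mul_of_pos_left hsum hpos8
      _ = _ := mul_one _
  exact lt_irrefl _ this

end Crest.Agent.Lib.Egyptian
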