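import Mathlib

/-!
# Row 19 (S0025), module `Primes`: the prime-number input of helper75's proof (finding #726).

* `two_pow_le_primeCounting` : Chebyshev, `2^z ≤ 2 z π(2^z)`;
* `three_mul_le_primeCounting_sq` : Chebyshev, `3 n ≤ π(n²)` for `n ≥ 64`;
* `exists_generators` : two disjoint sets of `n` primes in `(n, n²]`;
* `factorial_mul_prod_sq_le` : `n! * (∏ Gen)² ≤ n^(9n)`;
* `smoothProducts g u` : the set of products of exactly `u` distinct primes `≤ g`, with
  its size `C(π(g), u)`, the lower bound `2^(zu) ≤ |A| (4uz)^u`, and basic properties.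
-/

set_option autoImplicit false

namespace Crest.Agent.Egyptian

open Finset Real

private theorem aux_two_pow (z : ℕ) (hz : 3 ≤ z) : 2 * z + 2 ≤ 2 ^ z := by
  induction z, hz using Nat.le_induction with
  | base => norm_num
  | succ k hk ih => rw [pow_succ]; omega

/-- Chebyshev's lower bound, dyadic form. -/
theorem two_pow_le_primeCounting (z : ℕ) (hz : 3 ≤ z) :
    2 ^ z ≤ 2 * z * Nat.primeCounting (2 ^ z) := by
  have h := Chebyshev.pi_ge (2 ^ z)
  have hlog2 : 0 < Real.log 2 := Real.log_pos (by norm_num)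
  have hzpos : (0 : ℝ) < z := by exact_mod_cast (by omega : 0 < z)
  have hpow : (2 * z + 2 : ℕ) ≤ 2 ^ z := aux_two_pow z hz
  have hlogpow : Real.log ((2 ^ z : ℕ) : ℝ) = z * Real.log 2 := by
    push_cast; rw [Real.log_pow]
  have hlogsucc : Real.log (((2 ^ z : ℕ) : ℝ) + 1) ≤ (z + 1) * Real.log 2 := by
    have h1 : (((2 ^ z : ℕ) : ℝ) + 1) ≤ 2 ^ (z + 1) := by
      have : (1 : ℝ) ≤ 2 ^ z := one_le_pow₀ (by norm_num)
      push_cast; rw [pow_succ]; linarith
    have h2 : Real.log (((2 ^ z : ℕ) : ℝ) + 1) ≤ Real.log (2 ^ (z + 1)) :=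
      Real.log_le_log (by positivity) h1
    rw [Real.log_pow] at h2
    push_cast at h2 ⊢
    linarith
  rw [hlogpow, div_le_iff₀ (by positivity)] at h
  have key : ((2 ^ z : ℕ) : ℝ) - z - 1 ≤ Nat.primeCounting (2 ^ z) * z := by
    have : (((2 ^ z : ℕ) : ℝ) - z - 1) * Real.log 2 ≤
        ((Nat.primeCounting (2 ^ z) : ℝ) * z) * Real.log 2 := by nlinarith
    exact le_of_mul_le_mul_right this hlog2
  have hpow' : (2 * (z : ℝ) + 2) ≤ ((2 ^ z : ℕ) : ℝ) := by exact_mod_cast hpow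
  have : ((2 ^ z : ℕ) : ℝ) ≤ ((2 * z * Nat.primeCounting (2 ^ z) : ℕ) : ℝ) := by
    push_cast at key hpow' ⊢
    nlinarith
  exact_mod_cast this

/-- Chebyshev's lower bound at `n²`. -/
theorem three_mul_le_primeCounting_sq (n : ℕ) (hn : 64 ≤ n) :
    3 * n ≤ Nat.primeCounting (n ^ 2) := by
  have h := Chebyshev.pi_ge (n ^ 2)
  have hn' : (64 : ℝ) ≤ n := by exact_mod_cast hn
  have hnpos : (0 : ℝ) < n := by linarith
  have hlog : Real.log n ≤ n / 64 + 3.16 := by
    have h1 : Real.log ((n : ℝ) / 64) ≤ (n : ℝ) / 64 - 1 :=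
      Real.log_le_sub_one_of_pos (by positivity)
    rw [Real.log_div hnpos.ne' (by norm_num)] at h1
    have h64 : Real.log 64 = 6 * Real.log 2 := by
      rw [show (64 : ℝ) = 2 ^ 6 by norm_num, Real.log_pow]; norm_num
    have := Real.log_two_lt_d9
    rw [h64] at h1
    linarith
  have hlogpos : 0 < Real.log n := Real.log_pos (by linarith)
  have hlogsq : Real.log ((n ^ 2 : ℕ) : ℝ) = 2 * Real.log n := by
    push_cast; rw [Real.log_pow]; norm_num
  have hlogsucc : Real.log (((n ^ 2 : ℕ) : ℝ) + 1) ≤ n := by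
    have h1 : (((n ^ 2 : ℕ) : ℝ) + 1) ≤ 2 * (n : ℝ) ^ 2 := by
      push_cast; nlinarith
    have h2 : Real.log (((n ^ 2 : ℕ) : ℝ) + 1) ≤ Real.log (2 * (n : ℝ) ^ 2) :=
      Real.log_le_log (by positivity) h1
    rw [Real.log_mul (by norm_num) (by positivity), Real.log_pow] at h2
    have := Real.log_two_lt_d9
    push_cast at h2 ⊢
    nlinarith
  rw [hlogsq, div_le_iff₀ (by positivity)] at h
  have h2 := Real.log_two_gt_d9
  have hnsq : (0 : ℝ) ≤ ((n ^ 2 : ℕ) : ℝ) := by positivity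
  by_contra hcon
  push Not at hcon
  have hlt : (Nat.primeCounting (n ^ 2) : ℝ) < 3 * n := by exact_mod_cast hcon
  have h3 : (Nat.primeCounting (n ^ 2) : ℝ) * (2 * Real.log n) < 3 * n * (2 * Real.log n) :=
    mul_lt_mul_of_pos_right hlt (by positivity)
  have h4 : ((n ^ 2 : ℕ) : ℝ) * Real.log 2 ≥ (n : ℝ) ^ 2 * 0.69 := by
    push_cast
    exact mul_le_mul_of_nonneg_left (by linarith) (by positivity)
  have h5 : 3 * (n : ℝ) * (2 * Real.log n) ≤ 3 * n * (2 * (n / 64 + 3.16)) :=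
    mul_le_mul_of_nonneg_left (by linarith) (by positivity)
  nlinarith

/-- There are two disjoint sets of `n` primes in `(n, n²]`. -/
theorem exists_generators (n : ℕ) (hn : 64 ≤ n) :
    ∃ P₁ P₂ : Finset ℕ, Disjoint P₁ P₂ ∧ P₁.card = n ∧ P₂.card = n ∧
      (∀ p ∈ P₁ ∪ P₂, p.Prime ∧ n < p ∧ p ≤ n ^ 2) := by
  classical
  have hπ := three_mul_le_primeCounting_sq n hn
  set P : Finset ℕ := (Nat.primesLE (n ^ 2)).filter (fun p => n < p) with hP
  have hcard : 2 * n ≤ P.card := by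
    have h1 : (Nat.primesLE (n ^ 2)).card = Nat.primeCounting (n ^ 2) :=
      Nat.primesLE_card_eq_primeCounting _
    have h2 : ((Nat.primesLE (n ^ 2)).filter (fun p => ¬ n < p)).card ≤ n := by
      have : ((Nat.primesLE (n ^ 2)).filter (fun p => ¬ n < p)) ⊆ Finset.Ioc 0 n := by
        intro p hp
        simp only [mem_filter, Nat.mem_primesLE, not_lt] at hp
        simp only [Finset.mem_Ioc]
        exact ⟨hp.1.2.pos, hp.2⟩
      simpa using Finset.card_le_card this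
    have h3 : P.card + ((Nat.primesLE (n ^ 2)).filter (fun p => ¬ n < p)).card
        = (Nat.primesLE (n ^ 2)).card := by
      rw [hP]; exact Finset.card_filter_add_card_filter_not _
    omega
  obtain ⟨Q, hQP, hQ⟩ := Finset.exists_subset_card_eq hcard
  obtain ⟨P₁, hP₁Q, hP₁⟩ := Finset.exists_subset_card_eq (show n ≤ Q.card by omega)
  refine ⟨P₁, Q \ P₁, Finset.disjoint_sdiff, hP₁, ?_, ?_⟩
  · rw [Finset.card_sdiff_of_subset hP₁Q]; omega
  · intro p hp
    have hpQ : p ∈ Q := by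
      rcases Finset.mem_union.mp hp with h | h
      · exact hP₁Q h
      · exact (Finset.mem_sdiff.mp h).1
    have := hQP hpQ
    simp only [hP, mem_filter, Nat.mem_primesLE] at this
    exact ⟨this.1.2, this.2, this.1.1⟩

/-- `n! * (∏ Gen)² ≤ n^(9n)` for a set `Gen` of `2n` numbers `≤ n²`. -/
theorem factorial_mul_prod_sq_le (n : ℕ) (G : Finset ℕ) (hG : G.card = 2 * n)
    (hle : ∀ p ∈ G, p ≤ n ^ 2) :
    n.factorial * (∏ p ∈ G, p) ^ 2 ≤ n ^ (9 * n) := by
  have h1 : ∏ p ∈ G, p ≤ (n ^ 2) ^ (2 * n) := by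
    have := Finset.prod_le_pow_card G (fun p => p) (n ^ 2) hle
    rwa [hG] at this
  have h2 : (∏ p ∈ G, p) ^ 2 ≤ ((n ^ 2) ^ (2 * n)) ^ 2 := Nat.pow_le_pow_left h1 2
  have h3 : n.factorial ≤ n ^ n := Nat.factorial_le_pow n
  calc n.factorial * (∏ p ∈ G, p) ^ 2 ≤ n ^ n * ((n ^ 2) ^ (2 * n)) ^ 2 :=
        Nat.mul_le_mul h3 h2
    _ = n ^ (9 * n) := by
        rw [← pow_mul, ← pow_mul, ← pow_add]; congr 1; ring

/-- The set of products of exactly `u` distinct primes `≤ g`. -/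
noncomputable def smoothProducts (g u : ℕ) : Finset ℕ :=
  ((Nat.primesLE g).powersetCard u).image (fun S => ∏ p ∈ S, p)

theorem mem_smoothProducts {g u x : ℕ} :
    x ∈ smoothProducts g u ↔
      ∃ S : Finset ℕ, (∀ p ∈ S, p.Prime ∧ p ≤ g) ∧ S.card = u ∧ ∏ p ∈ S, p = x := by
  simp only [smoothProducts, mem_image, mem_powersetCard]
  constructor
  · rintro ⟨S, ⟨hS, hc⟩, rfl⟩
    exact ⟨S, fun p hp => by
      have := Nat.mem_primesLE.mp (hS hp); exact ⟨this.2, this.1⟩, hc, rfl⟩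
  · rintro ⟨S, hS, hc, rfl⟩
    exact ⟨S, ⟨fun p hp => Nat.mem_primesLE.mpr ⟨(hS p hp).2, (hS p hp).1⟩, hc⟩, rfl⟩

theorem card_smoothProducts (g u : ℕ) :
    (smoothProducts g u).card = (Nat.primeCounting g).choose u := by
  classical
  have hinj : Set.InjOn (fun S : Finset ℕ => ∏ p ∈ S, p)
      (((Nat.primesLE g).powersetCard u : Finset (Finset ℕ)) : Set (Finset ℕ)) := by
    intro S hS T hT hST
    simp only [Finset.mem_coe, mem_powersetCard] at hS hT
    have h1 : ∀ p ∈ S, p.Prime := fun p hp => Nat.prime_of_mem_primesLE (hS.1 hp)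
    have h2 : ∀ p ∈ T, p.Prime := fun p hp => Nat.prime_of_mem_primesLE (hT.1 hp)
    have h3 := Nat.primeFactors_prod h1
    have h4 := Nat.primeFactors_prod h2
    simp only at hST
    rw [← h3, ← h4, hST]
  rw [smoothProducts, Finset.card_image_of_injOn hinj, Finset.card_powersetCard,
    Nat.primesLE_card_eq_primeCounting]

theorem smoothProducts_pos {g u x : ℕ} (hx : x ∈ smoothProducts g u) : 0 < x := by
  obtain ⟨S, hS, -, rfl⟩ := mem_smoothProducts.mp hx
  exact Finset.prod_pos fun p hp => (hS p hp).1.pos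

theorem smoothProducts_le {g u x : ℕ} (hx : x ∈ smoothProducts g u) : x ≤ g ^ u := by
  obtain ⟨S, hS, hc, rfl⟩ := mem_smoothProducts.mp hx
  have := Finset.prod_le_pow_card S (fun p => p) g (fun p hp => (hS p hp).2)
  rwa [hc] at this

/-- every prime factor of an element of `A` is at most `g`. -/
theorem smoothProducts_smooth {g u x : ℕ} (hx : x ∈ smoothProducts g u) {p : ℕ}
    (hp : p.Prime) (hpx : p ∣ x) : p ≤ g := by
  obtain ⟨S, hS, -, rfl⟩ := mem_smoothProducts.mp hx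
  obtain ⟨q, hq, hpq⟩ := (Prime.dvd_finsetProd_iff hp.prime _).mp hpx
  have hq' := hS q hq
  have : p = q := (Nat.prime_dvd_prime_iff_eq hp hq'.1).mp hpq
  exact this ▸ hq'.2

/-- an element of `A` is coprime to every number all of whose prime factors exceed `g`. -/
theorem smoothProducts_coprime {g u x b : ℕ} (hx : x ∈ smoothProducts g u)
    (hb : ∀ p : ℕ, p.Prime → p ∣ b → g < p) : Nat.Coprime x b := by
  refine Nat.Coprime.symm (Nat.coprime_of_dvd ?_) |>.symm.symm
  intro p hp hpb hpx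
  have h1 := hb p hp hpb
  have h2 := smoothProducts_smooth hx hp hpx
  omega

/-- `(m/(2u))^u ≤ C(m,u)` in multiplied-out form, for `2u ≤ m`. -/
theorem pow_le_choose_mul (m u : ℕ) (hu : 2 * u ≤ m) :
    m ^ u ≤ m.choose u * (2 * u) ^ u := by
  have h := Nat.pow_le_choose (α := ℚ) u m
  have hfac : ((u.factorial : ℕ) : ℚ) ≤ ((u ^ u : ℕ) : ℚ) := by
    exact_mod_cast Nat.factorial_le_pow u
  have hfacpos : (0 : ℚ) < (u.factorial : ℕ) := by exact_mod_cast u.factorial_pos
  rw [div_le_iff₀ hfacpos] at h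
  have h1 : ((m + 1 - u : ℕ) : ℚ) ^ u ≤ (m.choose u : ℚ) * ((u ^ u : ℕ) : ℚ) :=
    h.trans (mul_le_mul_of_nonneg_left hfac (by positivity))
  have h2 : m ^ u ≤ (2 * (m + 1 - u)) ^ u := by
    apply Nat.pow_le_pow_left
    omega
  have h3 : (m + 1 - u) ^ u ≤ m.choose u * u ^ u := by exact_mod_cast h1
  calc m ^ u ≤ (2 * (m + 1 - u)) ^ u := h2
    _ = 2 ^ u * (m + 1 - u) ^ u := by rw [mul_pow]
    _ ≤ 2 ^ u * (m.choose u * u ^ u) := Nat.mul_le_mul_left _ h3
    _ = m.choose u * (2 * u) ^ u := by rw [mul_pow]; ring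

/-- The size of `A`: `g^u ≤ |A| (4 u z)^u` for `g = 2^z`, as soon as `4 u z ≤ 2^z` and `z ≥ 3`. -/
theorem card_smoothProducts_lower (z u : ℕ) (hz : 3 ≤ z) (hu : 4 * u * z ≤ 2 ^ z) :
    2 ^ (z * u) ≤ (smoothProducts (2 ^ z) u).card * (4 * u * z) ^ u := by
  rw [card_smoothProducts]
  set m := Nat.primeCounting (2 ^ z) with hm
  have hch := two_pow_le_primeCounting z hz
  rw [← hm] at hch
  have hzpos : 0 < z := by omega
  have h2u : 2 * u ≤ m := by
    have : 4 * u * z ≤ 2 * z * m := hu.trans hch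
    have h' : z * (4 * u) ≤ z * (2 * m) := by nlinarith
    have := Nat.le_of_mul_le_mul_left h' hzpos
    omega
  have h1 := pow_le_choose_mul m u h2u
  calc 2 ^ (z * u) = (2 ^ z) ^ u := by rw [pow_mul]
    _ ≤ (2 * z * m) ^ u := Nat.pow_le_pow_left hch u
    _ = (2 * z) ^ u * m ^ u := by rw [mul_pow]
    _ ≤ (2 * z) ^ u * (m.choose u * (2 * u) ^ u) := Nat.mul_le_mul_left _ h1
    _ = m.choose u * (4 * u * z) ^ u := by
        rw [show 4 * u * z = (2 * z) * (2 * u) by ring, mul_pow (2 * z) (2 * u)]; ring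

end Crest.Agent.Egyptian
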