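import Crest.Agent.Lib.Egyptian.Digits
import Crest.Agent.Lib.Egyptian.Fourier
import Crest.Agent.Lib.Egyptian.Primes

/-!
# S0025, step (4) of the plan #726: rough removal.

`a/b - ∑_{j<8} 1/(b X_j) = ρ` with `ρ * M` integral, `M` being `g`-smooth.
-/

set_option autoImplicit false

open Finset

namespace Crest.Agent.Lib.Egyptian

open Crest.Agent.Egyptian (smoothProducts smoothProducts_pos smoothProducts_le
  smoothProducts_smooth smoothProducts_coprime card_smoothProducts_lower)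

/-- Split `b` into its `g`-smooth part and its `g`-rough part. -/
lemma exists_smooth_rough_split (g : ℕ) :
    ∀ b : ℕ, 0 < b → ∃ s r : ℕ, b = s * r ∧ 0 < s ∧ 0 < r ∧
      (∀ p : ℕ, p.Prime → p ∣ s → p ≤ g) ∧ (∀ p : ℕ, p.Prime → p ∣ r → g < p) := by
  intro b
  induction b using Nat.strong_induction_on with
  | _ b ih =>
    intro hb
    by_cases hb1 : b = 1
    · subst hb1
      refine ⟨1, 1, by norm_num, by norm_num, by norm_num, ?_, ?_⟩
      · intro p hp h; exact absurd (Nat.dvd_one.mp h) hp.ne_one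
      · intro p hp h; exact absurd (Nat.dvd_one.mp h) hp.ne_one
    · have hp := Nat.minFac_prime hb1
      obtain ⟨c, hc⟩ := Nat.minFac_dvd b
      set p := b.minFac with hpdef
      have hc0 : 0 < c := by
        rcases Nat.eq_zero_or_pos c with h | h
        · subst h; omega
        · exact h
      have hcb : c < b := by
        rw [hc]
        have := hp.two_le
        nlinarith
      obtain ⟨s, r, h1, h2, h3, h4, h5⟩ := ih c hcb hc0
      by_cases hpg : p ≤ g
      · refine ⟨p * s, r, by rw [hc, h1]; ring, Nat.mul_pos hp.pos h2, h3, ?_, h5⟩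
        intro q hq hqd
        rcases (Nat.Prime.dvd_mul hq).mp hqd with h | h
        · rw [(Nat.prime_dvd_prime_iff_eq hq hp).mp h]; exact hpg
        · exact h4 q hq h
      · refine ⟨s, p * r, by rw [hc, h1]; ring, h2, Nat.mul_pos hp.pos h3, h4, ?_⟩
        intro q hq hqd
        rcases (Nat.Prime.dvd_mul hq).mp hqd with h | h
        · rw [(Nat.prime_dvd_prime_iff_eq hq hp).mp h]; omega
        · exact h5 q hq h

/-- number of elements of a residue class in `[0, Y]`. -/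
lemma card_residue_le (A : Finset ℕ) (Y q x : ℕ) (hq : 0 < q) (hA : ∀ y ∈ A, y ≤ Y)
    (hres : ∀ y ∈ A, y % q = x % q) : A.card ≤ Y / q + 1 := by
  have : A.card ≤ (range (Y / q + 1)).card := by
    apply card_le_card_of_injOn (fun y => y / q)
    · intro y hy
      have := hA y hy
      simp only [coe_range, Set.mem_Iio]
      exact Nat.lt_succ_of_le (Nat.div_le_div_right this)
    · intro y hy y' hy' h
      have h1 := hres y hy
      have h2 := hres y' hy'
      simp only at h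
      rw [← Nat.div_add_mod y q, ← Nat.div_add_mod y' q, h, h1, h2]
  simpa using this

/-- the inverse modulo `r`. -/
def invMod (r x : ℕ) : ℤ := Nat.gcdA x r

lemma mul_invMod (r x : ℕ) (h : Nat.Coprime x r) : (r : ℤ) ∣ (x : ℤ) * invMod r x - 1 := by
  have := Nat.gcd_eq_gcd_ab x r
  rw [h] at this
  unfold invMod
  refine ⟨-Nat.gcdB x r, ?_⟩
  push_cast at this
  linarith

/-- collisions of the inverse map. -/
lemma collCount_invMod_le (A : Finset ℕ) (r q Y : ℕ) (hq0 : 0 < q) (hqr : q ∣ r)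
    (hqY : q ≤ Y) (hcop : ∀ x ∈ A, Nat.Coprime x r) (hY : ∀ x ∈ A, x ≤ Y) :
    (collCount A q (invMod r) : ℝ) ≤ (A.card : ℝ) * (2 * (Y : ℝ) / q) := by
  classical
  have hq0R : (0 : ℝ) < q := by exact_mod_cast hq0
  have hfiber : ∀ x ∈ A, ((A.filter (fun x' => (q : ℤ) ∣ invMod r x - invMod r x')).card : ℝ) ≤
      2 * (Y : ℝ) / q := by
    intro x hx
    have hcard : (A.filter (fun x' => (q : ℤ) ∣ invMod r x - invMod r x')).card ≤ Y / q + 1 := by
      apply card_residue_le _ Y q x hq0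
      · intro y hy
        exact hY y (mem_filter.mp hy).1
      · intro y hy
        obtain ⟨hyA, hyd⟩ := mem_filter.mp hy
        have hqrZ : (q : ℤ) ∣ (r : ℤ) := by exact_mod_cast hqr
        have h1 := hqrZ.trans (mul_invMod r x (hcop x hx))
        have h2 := hqrZ.trans (mul_invMod r y (hcop y hyA))
        have h3 : (q : ℤ) ∣ (x : ℤ) - y := by
          have e : (x : ℤ) - y = ((x : ℤ) * invMod r x - 1) * y - ((y : ℤ) * invMod r y - 1) * x
              - (x : ℤ) * y * (invMod r x - invMod r y) := by ring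
          rw [e]
          exact dvd_sub (dvd_sub (h1.mul_right _) (h2.mul_right _)) (hyd.mul_left _)
        have h4 : (y : ℤ) ≡ x [ZMOD q] := by
          exact (Int.modEq_iff_dvd.mpr h3)
        have h5 : y ≡ x [MOD q] := by exact_mod_cast h4
        exact h5
    have h1 : ((Y / q : ℕ) : ℝ) ≤ (Y : ℝ) / q := Nat.cast_div_le
    have h2 : (1 : ℝ) ≤ (Y : ℝ) / q := by
      rw [le_div_iff₀ hq0R]
      simpa using (by exact_mod_cast hqY : (q : ℝ) ≤ Y)
    calc ((A.filter (fun x' => (q : ℤ) ∣ invMod r x - invMod r x')).card : ℝ)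
        ≤ ((Y / q + 1 : ℕ) : ℝ) := by exact_mod_cast hcard
      _ = ((Y / q : ℕ) : ℝ) + 1 := by push_cast; ring
      _ ≤ 2 * (Y : ℝ) / q := by
        have : 2 * (Y : ℝ) / q = (Y : ℝ) / q + (Y : ℝ) / q := by ring
        rw [this]; linarith
  have hcount : collCount A q (invMod r) =
      ∑ x ∈ A, (A.filter (fun x' => (q : ℤ) ∣ invMod r x - invMod r x')).card := by
    unfold collCount
    rw [card_filter, sum_product]
    apply sum_congr rfl
    intro x _
    rw [card_filter]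
  rw [hcount]
  push_cast
  calc ∑ x ∈ A, ((A.filter (fun x' => (q : ℤ) ∣ invMod r x - invMod r x')).card : ℝ)
      ≤ ∑ _x ∈ A, (2 * (Y : ℝ) / q) := sum_le_sum hfiber
    _ = (A.card : ℝ) * (2 * (Y : ℝ) / q) := by simp

/-- The key divisibility: the tail `∑_{q' ∣ r, q' > 1} 1/q'^3` is at most `1/g`. -/
lemma sum_inv_cube_le (g r : ℕ) (hg : 0 < g) (hr : 0 < r)
    (hrough : ∀ p : ℕ, p.Prime → p ∣ r → g < p) :
    ∑ q' ∈ r.divisors.filter (fun d => 1 < d), (1 : ℝ) / (q' : ℝ) ^ 3 ≤ (1 : ℝ) / g := by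
  have hsub : r.divisors.filter (fun d => 1 < d) ⊆ Ioc g (max g r) := by
    intro d hd
    obtain ⟨hd1, hd2⟩ := mem_filter.mp hd
    have hdr := Nat.dvd_of_mem_divisors hd1
    have hdle : d ≤ r := Nat.le_of_dvd hr hdr
    have hp := Nat.minFac_prime (n := d) (by omega)
    have hgd : g < d.minFac := hrough _ hp ((Nat.minFac_dvd d).trans hdr)
    have : d.minFac ≤ d := Nat.minFac_le (by omega)
    simp only [mem_Ioc]
    exact ⟨by omega, le_max_of_le_right hdle⟩
  have hg' : g ≠ 0 := by omega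
  have h1 := sum_Ioc_inv_sq_le_sub (α := ℝ) hg' (le_max_left g r)
  have hnn : ∀ i ∈ Ioc g (max g r), i ∉ r.divisors.filter (fun d => 1 < d) →
      (0 : ℝ) ≤ (1 : ℝ) / (i : ℝ) ^ 3 := fun _ _ _ => by positivity
  calc ∑ q' ∈ r.divisors.filter (fun d => 1 < d), (1 : ℝ) / (q' : ℝ) ^ 3
      ≤ ∑ q' ∈ Ioc g (max g r), (1 : ℝ) / (q' : ℝ) ^ 3 := sum_le_sum_of_subset_of_nonneg hsub hnn
    _ ≤ ∑ q' ∈ Ioc g (max g r), ((q' : ℝ) ^ 2)⁻¹ := by
        apply sum_le_sum
        intro i hi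
        have hi1 : 1 ≤ i := by
          have := (mem_Ioc.mp hi).1
          omega
        have hi1R : (1 : ℝ) ≤ i := by exact_mod_cast hi1
        rw [one_div]
        apply inv_anti₀ (by positivity)
        nlinarith [sq_nonneg (i : ℝ)]
    _ ≤ (g : ℝ)⁻¹ - ((max g r : ℕ) : ℝ)⁻¹ := h1
    _ ≤ (1 : ℝ) / g := by
        rw [one_div]
        have : (0 : ℝ) ≤ ((max g r : ℕ) : ℝ)⁻¹ := by positivity
        linarith

/-- Arithmetic of the last part of (4). -/
lemma rough_arith (a s r : ℕ) (hs : 0 < s) (hr : 0 < r) (h8 : 8 ≤ a) (X : Fin 8 → ℕ) (f : Fin 8 → ℤ)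
    (hX : ∀ j, 0 < X j) (hfX : ∀ j, (r : ℤ) ∣ (X j : ℤ) * f j - 1)
    (hsum : (r : ℤ) ∣ ∑ j, f j - a) :
    ∃ (ρ : ℚ), 0 ≤ ρ ∧ ρ ≤ (a : ℚ) / ((s * r : ℕ) : ℚ) ∧
      (∃ k : ℤ, ρ * ((s * ∏ j, X j : ℕ) : ℚ) = k) ∧
      UF ((a : ℚ) / ((s * r : ℕ) : ℚ) - ρ) 8 := by
  classical
  set b := s * r with hb
  have hb0 : 0 < b := Nat.mul_pos hs hr
  have hbQ : (0 : ℚ) < (b : ℚ) := by exact_mod_cast hb0
  have hsQ : (0 : ℚ) < (s : ℚ) := by exact_mod_cast hs
  have hrQ : (0 : ℚ) < (r : ℚ) := by exact_mod_cast hr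
  have hXQ : ∀ j, (0 : ℚ) < (X j : ℚ) := fun j => by exact_mod_cast hX j
  set σ : ℚ := ∑ j, (1 : ℚ) / ((b * X j : ℕ) : ℚ) with hσ
  refine ⟨(a : ℚ) / b - σ, ?_, ?_, ?_, ?_⟩
  · -- nonnegativity
    have h1 : ∀ j ∈ (univ : Finset (Fin 8)), (1 : ℚ) / ((b * X j : ℕ) : ℚ) ≤ 1 / (b : ℚ) := by
      intro j _
      apply one_div_le_one_div_of_le hbQ
      have : b ≤ b * X j := Nat.le_mul_of_pos_right _ (hX j)
      exact_mod_cast this
    have h2 : σ ≤ 8 * (1 / (b : ℚ)) := by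
      calc σ ≤ ∑ _j : Fin 8, (1 / (b : ℚ)) := sum_le_sum h1
        _ = 8 * (1 / (b : ℚ)) := by simp
    have h3 : (8 : ℚ) * (1 / (b : ℚ)) ≤ (a : ℚ) / b := by
      rw [mul_one_div]
      apply div_le_div_of_nonneg_right _ hbQ.le
      exact_mod_cast h8
    linarith
  · have : 0 ≤ σ := sum_nonneg (fun j _ => by positivity)
    linarith
  · -- integrality
    set P : Fin 8 → ℕ := fun j => ∏ i ∈ univ.erase j, X i with hP
    have hXP : ∀ j, X j * P j = ∏ i, X i := fun j => mul_prod_erase univ X (mem_univ j)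
    set XX : ℕ := ∏ i, X i with hXX
    have hXXpos : 0 < XX := prod_pos (fun j _ => hX j)
    have hdvd : (r : ℤ) ∣ (a : ℤ) * XX - ∑ j, (P j : ℤ) := by
      obtain ⟨k, hk⟩ := hsum
      have hterm : (r : ℤ) ∣ ∑ j, ((X j : ℤ) * f j - 1) * (P j : ℤ) :=
        dvd_sum (fun j _ => (hfX j).mul_right _)
      have e : (a : ℤ) * XX - ∑ j, (P j : ℤ) =
          ∑ j, ((X j : ℤ) * f j - 1) * (P j : ℤ) - (r : ℤ) * k * XX := by
        have h0 : ∑ j, ((X j : ℤ) * f j - 1) * (P j : ℤ) = (∑ j, f j) * XX - ∑ j, (P j : ℤ) := by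
          rw [sum_mul, ← sum_sub_distrib]
          apply sum_congr rfl
          intro j _
          have : ((XX : ℕ) : ℤ) = (X j : ℤ) * (P j : ℤ) := by
            rw [← hXP j]; push_cast; ring
          rw [this]; ring
        rw [h0]
        have h1 : ∑ j, f j = (a : ℤ) + (r : ℤ) * k := by linarith
        rw [h1]; ring
      rw [e]
      exact dvd_sub hterm ((dvd_mul_right _ _).mul_right _)
    obtain ⟨k, hk⟩ := hdvd
    refine ⟨k, ?_⟩
    have hk' : (a : ℚ) * XX - ∑ j, (P j : ℚ) = (r : ℚ) * k := by exact_mod_cast hk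
    have hσ' : σ * ((s * XX : ℕ) : ℚ) = (∑ j, (P j : ℚ)) / r := by
      rw [hσ, sum_mul, sum_div]
      apply sum_congr rfl
      intro j _
      have e1 : ((XX : ℕ) : ℚ) = (X j : ℚ) * (P j : ℚ) := by
        rw [← hXP j]; push_cast; ring
      have hXj := (hXQ j).ne'
      rw [hb]
      push_cast
      rw [e1]
      field_simp
    have hab : (a : ℚ) / b * ((s * XX : ℕ) : ℚ) = (a : ℚ) * XX / r := by
      rw [hb]
      push_cast
      field_simp
    rw [sub_mul, hab, hσ']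
    rw [← sub_div, hk']
    field_simp
  · -- the unit fraction part
    have : (a : ℚ) / b - ((a : ℚ) / b - σ) = σ := by ring
    rw [this]
    have key : ∀ t : Finset (Fin 8), UF (∑ j ∈ t, (1 : ℚ) / ((b * X j : ℕ) : ℚ)) t.card := by
      intro t
      induction t using Finset.induction_on with
      | empty => simpa using UF.zero 0
      | insert j t hj ih =>
        rw [sum_insert hj, card_insert_of_notMem hj, add_comm t.card 1]
        exact UF.add (UF.unit (Nat.mul_pos hb0 (hX j))) ih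
    have := key univ
    simpa [hσ] using this

/-- **Rough removal.** -/
theorem rough_step (z u a b : ℕ) (hz : 3 ≤ z) (hu : 4 * u * z ≤ 2 ^ z) (hb0 : 0 < b)
    (hb : b ≤ (2 ^ z) ^ u) (h8 : 8 ≤ a)
    (hcond : 4 ^ 4 * (4 * u * z) ^ (8 * u) < 2 ^ z) :
    ∃ (ρ : ℚ) (M : ℕ), 0 ≤ ρ ∧ ρ ≤ (a : ℚ) / b ∧ 0 < M ∧ M ≤ b * ((2 ^ z) ^ (2 * u)) ^ 8 ∧
      (∀ p : ℕ, p.Prime → p ∣ M → p ≤ 2 ^ z) ∧ (∃ k : ℤ, ρ * (M : ℚ) = k) ∧
      UF ((a : ℚ) / b - ρ) 8 := by
  classical
  set g : ℕ := 2 ^ z with hg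
  have hg0 : 0 < g := by positivity
  obtain ⟨s, r, hsr, hs0, hr0, hssm, hrro⟩ := exists_smooth_rough_split g b hb0
  set A := smoothProducts g u with hA
  set Y : ℕ := g ^ u with hY
  set Λ : ℕ := (4 * u * z) ^ u with hΛ
  have hYA : Y ≤ A.card * Λ := by
    have := card_smoothProducts_lower z u hz hu
    rw [pow_mul] at this
    exact this
  have hYpos : 0 < Y := by positivity
  have hApos : 0 < A.card := by
    rcases Nat.eq_zero_or_pos A.card with h | h
    · rw [h] at hYA; omega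
    · exact h
  have hAne : A.Nonempty := card_pos.mp hApos
  have hcop : ∀ x ∈ A, Nat.Coprime x r := fun x hx => smoothProducts_coprime hx hrro
  have hAY : ∀ x ∈ A, x ≤ Y := fun x hx => smoothProducts_le hx
  have hApos' : ∀ x ∈ A, 0 < x := fun x hx => smoothProducts_pos hx
  set U := A ×ˢ A with hU
  have hUne : U.Nonempty := hAne.product hAne
  set φ : ℕ → ℤ := invMod r with hφ
  set F : ℕ × ℕ → ℤ := fun i => φ i.1 * φ i.2 with hF
  have hAR : (0 : ℝ) < (A.card : ℝ) := by exact_mod_cast hApos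
  have hrZ : r ≠ 0 := by omega
  set β : ℕ → ℝ := fun q' => 4 * (Y : ℝ) ^ 2 / ((A.card : ℝ) ^ 2 * q') with hβ
  have hβbound : ∀ q', q' ∣ r → 1 < q' → ∀ y : ℤ, IsCoprime y (q' : ℤ) →
      ‖∑ i ∈ U, ee q' (y * F i)‖ ^ 2 ≤ (U.card : ℝ) ^ 2 * β q' := by
    intro q' hq'r hq'1 y hy
    have hq'0 : 0 < q' := by omega
    have hq'R : (0 : ℝ) < (q' : ℝ) := by exact_mod_cast hq'0
    have hq'Y : q' ≤ Y := by
      have h1 : q' ≤ r := Nat.le_of_dvd hr0 hq'r
      have h2 : r ≤ b := by rw [hsr]; exact Nat.le_mul_of_pos_left _ hs0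
      omega
    have hsum : ∑ i ∈ U, ee q' (y * F i) = ∑ x ∈ A, ∑ x' ∈ A, ee q' (y * φ x * φ x') := by
      rw [hU, sum_product]
      apply sum_congr rfl
      intro x _
      apply sum_congr rfl
      intro x' _
      simp only [hF, mul_assoc]
    have hbil := bilinear A A q' (by omega) y hy φ φ
    have hcoll := collCount_invMod_le A r q' Y hq'0 hq'r hq'Y hcop hAY
    have hc0 : (0 : ℝ) ≤ (collCount A q' φ : ℝ) := by positivity
    rw [hsum]
    refine hbil.trans ?_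
    have hUc : (U.card : ℝ) = (A.card : ℝ) ^ 2 := by
      rw [hU, card_product]; push_cast; ring
    rw [hUc]
    have e : ((A.card : ℝ) ^ 2) ^ 2 * β q' =
        (q' : ℝ) * ((A.card : ℝ) * (2 * (Y : ℝ) / q')) * ((A.card : ℝ) * (2 * (Y : ℝ) / q')) := by
      simp only [hβ]
      field_simp
      ring
    rw [e, mul_assoc, mul_assoc]
    apply mul_le_mul_of_nonneg_left _ hq'R.le
    exact mul_le_mul hcoll hcoll hc0 (by positivity)
  have hgR : (0 : ℝ) < (g : ℝ) := by exact_mod_cast hg0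
  have hβsum : ∑ q' ∈ r.divisors.filter (fun d => 1 < d), (q' : ℝ) * (β q') ^ 4 < 1 := by
    set K : ℝ := 4 * (Y : ℝ) ^ 2 / (A.card : ℝ) ^ 2 with hK
    have hK0 : 0 ≤ K := by positivity
    have hKle : K ≤ 4 * (Λ : ℝ) ^ 2 := by
      have h1 : (Y : ℝ) ≤ (A.card : ℝ) * Λ := by exact_mod_cast hYA
      have h2 : (Y : ℝ) ^ 2 ≤ ((A.card : ℝ) * Λ) ^ 2 := by
        apply pow_le_pow_left₀ (by positivity) h1
      rw [hK, div_le_iff₀ (by positivity)]
      nlinarith
    have hterm : ∀ q' ∈ r.divisors.filter (fun d => 1 < d),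
        (q' : ℝ) * (β q') ^ 4 = K ^ 4 * ((1 : ℝ) / (q' : ℝ) ^ 3) := by
      intro q' hq'
      obtain ⟨h1, h2⟩ := mem_filter.mp hq'
      have hq'0 : (q' : ℝ) ≠ 0 := by
        have : q' ≠ 0 := by omega
        exact_mod_cast this
      simp only [hβ, hK]
      field_simp
    rw [sum_congr rfl hterm, ← mul_sum]
    have hsum3 := sum_inv_cube_le g r hg0 hr0 hrro
    have hK4 : K ^ 4 ≤ (4 * (Λ : ℝ) ^ 2) ^ 4 := pow_le_pow_left₀ hK0 hKle 4
    have hcondR : (4 * (Λ : ℝ) ^ 2) ^ 4 < (g : ℝ) := by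
      have : ((4 ^ 4 * (4 * u * z) ^ (8 * u) : ℕ) : ℝ) < ((2 ^ z : ℕ) : ℝ) := by
        exact_mod_cast hcond
      have e : (4 * (Λ : ℝ) ^ 2) ^ 4 = ((4 ^ 4 * (4 * u * z) ^ (8 * u) : ℕ) : ℝ) := by
        rw [hΛ]
        push_cast
        rw [mul_pow, ← pow_mul, ← pow_mul]
        ring_nf
      rw [e]
      exact this
    have hnn : 0 ≤ ∑ q' ∈ r.divisors.filter (fun d => 1 < d), (1 : ℝ) / (q' : ℝ) ^ 3 :=
      sum_nonneg (fun _ _ => by positivity)
    calc K ^ 4 * ∑ q' ∈ r.divisors.filter (fun d => 1 < d), (1 : ℝ) / (q' : ℝ) ^ 3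
        ≤ (4 * (Λ : ℝ) ^ 2) ^ 4 * ((1 : ℝ) / g) := mul_le_mul hK4 hsum3 hnn (by positivity)
      _ < 1 := by
        rw [mul_one_div, div_lt_one hgR]
        exact hcondR
  obtain ⟨i, hiU, hdvd⟩ := count_lemma U hUne F r hrZ (a : ℤ) β hβbound hβsum
  -- the denominators
  set X : Fin 8 → ℕ := fun j => (i j).1 * (i j).2 with hX
  have hi1 : ∀ j, (i j).1 ∈ A := fun j => (mem_product.mp (hiU j)).1
  have hi2 : ∀ j, (i j).2 ∈ A := fun j => (mem_product.mp (hiU j)).2
  have hXpos : ∀ j, 0 < X j := fun j => Nat.mul_pos (hApos' _ (hi1 j)) (hApos' _ (hi2 j))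
  have hXF : ∀ j, (r : ℤ) ∣ (X j : ℤ) * F (i j) - 1 := by
    intro j
    have h1 := mul_invMod r (i j).1 (hcop _ (hi1 j))
    have h2 := mul_invMod r (i j).2 (hcop _ (hi2 j))
    have e : (X j : ℤ) * F (i j) - 1 =
        (((i j).1 : ℤ) * invMod r (i j).1 - 1) * (((i j).2 : ℤ) * invMod r (i j).2)
          + (((i j).2 : ℤ) * invMod r (i j).2 - 1) := by
      simp only [hX, hF, hφ]
      push_cast
      ring
    rw [e]
    exact dvd_add (h1.mul_right _) h2
  obtain ⟨ρ, h1, h2, ⟨k, h3⟩, h4⟩ := rough_arith a s r hs0 hr0 h8 X (fun j => F (i j)) hXpos hXF hdvd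
  rw [← hsr] at h2 h4
  refine ⟨ρ, s * ∏ j, X j, h1, h2, ?_, ?_, ?_, ⟨k, h3⟩, h4⟩
  · exact Nat.mul_pos hs0 (prod_pos (fun j _ => hXpos j))
  · have hs_le : s ≤ b := by rw [hsr]; exact Nat.le_mul_of_pos_right _ hr0
    have hXle : ∀ j, X j ≤ g ^ (2 * u) := by
      intro j
      have h5 := hAY _ (hi1 j)
      have h6 := hAY _ (hi2 j)
      calc X j ≤ Y * Y := Nat.mul_le_mul h5 h6
        _ = g ^ (2 * u) := by rw [hY, two_mul, pow_add]
    apply Nat.mul_le_mul hs_le
    calc ∏ j, X j ≤ ∏ _j : Fin 8, g ^ (2 * u) := prod_le_prod' (fun j _ => hXle j)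
      _ = (g ^ (2 * u)) ^ 8 := by simp
  · intro p hp hpd
    rcases (Nat.Prime.dvd_mul hp).mp hpd with h | h
    · exact hssm p hp h
    · obtain ⟨j, _, hj⟩ := (Prime.dvd_finsetProd_iff hp.prime _).mp h
      rcases (Nat.Prime.dvd_mul hp).mp hj with h' | h'
      · exact smoothProducts_smooth (hi1 j) hp h'
      · exact smoothProducts_smooth (hi2 j) hp h'

end Crest.Agent.Lib.Egyptian
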