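import Mathlib

/-!
# Row 19 (S0025), Tool part A: counting bad moduli (step 3a of finding #726) and the density of
good numbers (step 3d).
-/

set_option autoImplicit false
set_option exponentiation.threshold 2000

namespace Crest.Agent.Lib.Egyptian.ToolBad

open Finset

/-- The product of a finset of naturals. -/
def D (S : Finset ℕ) : ℕ := ∏ p ∈ S, p

/-- The number of collisions of the subset products of `G` modulo `q`. -/
def coll (q : ℕ) (G : Finset ℕ) : ℕ :=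
  ((G.powerset ×ˢ G.powerset).filter
    fun x => x.1 ≠ x.2 ∧ ((q : ℤ) ∣ (D x.1 : ℤ) - (D x.2 : ℤ))).card

/-- The family `F` (without the exclusion of the generators): squarefree, `> 1`, all primes `> n`. -/
def InF (n q : ℕ) : Prop := 1 < q ∧ Squarefree q ∧ ∀ p, p.Prime → p ∣ q → n < p

/-- Rankin: the number of subsets of `W` of size at most `K`. -/
lemma card_small_subsets_le (W : Finset ℕ) (K : ℕ) :
    ((W.powerset.filter fun A => A.card ≤ K).card : ℚ) ≤
      (2 ^ 10) ^ K * (1025 / 1024) ^ W.card := by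
  have h1 : ((W.powerset.filter fun A => A.card ≤ K).card : ℚ) =
      ∑ A ∈ W.powerset.filter (fun A => A.card ≤ K), (1 : ℚ) := by
    simp
  have h2 : ∀ A ∈ W.powerset.filter (fun A => A.card ≤ K),
      (1 : ℚ) ≤ (2 ^ 10) ^ K * (1 / 1024) ^ A.card := by
    intro A hA
    have hA' : A.card ≤ K := (Finset.mem_filter.1 hA).2
    obtain ⟨d, hd⟩ := Nat.exists_eq_add_of_le hA'
    rw [hd, pow_add, show ((2 : ℚ) ^ 10) = 1024 by norm_num]
    have : (1024 : ℚ) ^ A.card * (1 / 1024) ^ A.card = 1 := by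
      rw [← mul_pow]; norm_num
    have h3 : (1 : ℚ) ≤ 1024 ^ d := one_le_pow₀ (by norm_num)
    calc (1 : ℚ) ≤ 1024 ^ d := h3
      _ = (1024 ^ A.card * 1024 ^ d) * (1 / 1024) ^ A.card := by
          rw [mul_comm ((1024 : ℚ) ^ A.card), mul_assoc, this, mul_one]
  rw [h1]
  refine (Finset.sum_le_sum h2).trans ?_
  rw [← Finset.mul_sum]
  refine mul_le_mul_of_nonneg_left ?_ (by positivity)
  have h4 : ∑ A ∈ W.powerset, ((1 : ℚ) / 1024) ^ A.card = (1025 / 1024) ^ W.card := by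
    have := Finset.sum_pow_mul_eq_add_pow ((1 : ℚ) / 1024) 1 W
    simp only [one_pow, mul_one] at this
    rw [this]; norm_num
  rw [← h4]
  refine Finset.sum_le_sum_of_subset_of_nonneg (Finset.filter_subset _ _) ?_
  intros; positivity

/-- The Rankin count in exponent form. -/
lemma card_small_subsets_le_pow (W : Finset ℕ) (t : ℕ) (ht : 4 ≤ t) (hW : W.card ≤ 28 * t) :
    (W.powerset.filter fun A => A.card ≤ t / 25).card ≤ 2 ^ (t - 1) := by
  have h := card_small_subsets_le W (t / 25)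
  have h2 : ((1025 : ℚ) / 1024) ^ W.card ≤ 2 ^ (t / 20 + 1) := by
    have h3 : ((1025 : ℚ) / 1024) ^ W.card ≤ (1025 / 1024) ^ (560 * (t / 20 + 1)) := by
      refine pow_le_pow_right₀ (by norm_num) ?_
      omega
    refine h3.trans ?_
    rw [pow_mul]
    refine pow_le_pow_left₀ (by positivity) ?_ _
    have h560 : ((1025 : ℚ) / 1024) ^ 560 ≤ 2 := by norm_num
    exact h560
  have h5 : (((W.powerset.filter fun A => A.card ≤ t / 25).card : ℕ) : ℚ) ≤ ((2 ^ (t - 1) : ℕ) : ℚ) := by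
    refine h.trans ?_
    push_cast
    calc ((2 : ℚ) ^ 10) ^ (t / 25) * (1025 / 1024) ^ W.card
        ≤ ((2 : ℚ) ^ 10) ^ (t / 25) * 2 ^ (t / 20 + 1) := by
          refine mul_le_mul_of_nonneg_left h2 (by positivity)
      _ = 2 ^ (10 * (t / 25) + (t / 20 + 1)) := by rw [← pow_mul, ← pow_add]
      _ ≤ 2 ^ (t - 1) := pow_le_pow_right₀ (by norm_num) (by omega)
  exact_mod_cast h5

/-- Product of `k` numbers `> n` dominates `n ^ k`. -/
lemma pow_card_le_prod (n : ℕ) (W : Finset ℕ) (h : ∀ p ∈ W, n < p) :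
    n ^ W.card ≤ ∏ p ∈ W, p := by
  calc n ^ W.card = ∏ _p ∈ W, n := by simp
    _ ≤ ∏ p ∈ W, p := Finset.prod_le_prod' fun p hp => (h p hp).le

open Classical in
/-- The number of `q` in the family, of scale `t`, dividing a fixed nonzero `Δ` of small size. -/
lemma card_dvd_le (n t : ℕ) (hn : 2 ^ 400 ≤ n) (ht : 4 ≤ t) (Δ : ℤ) (hΔ : Δ ≠ 0)
    (hΔle : Δ.natAbs ≤ n ^ (28 * t)) :
    ((Finset.range ((2 ^ 16) ^ (t + 1))).filter fun q => InF n q ∧ (q : ℤ) ∣ Δ).card ≤ 2 ^ (t - 1) := by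
  classical
  have hn1 : 1 < n := lt_of_lt_of_le (by norm_num) hn
  set W : Finset ℕ := (Δ.natAbs.primeFactors).filter fun p => n < p with hWdef
  have hdne : Δ.natAbs ≠ 0 := Int.natAbs_ne_zero.2 hΔ
  -- size of `W`
  have hWcard : W.card ≤ 28 * t := by
    have h1 : n ^ W.card ≤ ∏ p ∈ W, p := pow_card_le_prod n W fun p hp => (Finset.mem_filter.1 hp).2
    have h2 : (∏ p ∈ W, p) ∣ Δ.natAbs := by
      have h3 : (∏ p ∈ W, p) ∣ ∏ p ∈ Δ.natAbs.primeFactors, p :=
        Finset.prod_dvd_prod_of_subset _ _ _ (Finset.filter_subset _ _)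
      exact h3.trans (Nat.prod_primeFactors_dvd _)
    have h4 := Nat.le_of_dvd (Nat.pos_of_ne_zero hdne) h2
    have h5 : n ^ W.card ≤ n ^ (28 * t) := h1.trans (h4.trans hΔle)
    exact (Nat.pow_le_pow_iff_right hn1).1 h5
  -- the injection
  have hmaps : ∀ q ∈ (Finset.range ((2 ^ 16) ^ (t + 1))).filter (fun q => InF n q ∧ (q : ℤ) ∣ Δ),
      q.primeFactors ∈ W.powerset.filter fun A => A.card ≤ t / 25 := by
    intro q hq
    rw [Finset.mem_filter, Finset.mem_range] at hq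
    obtain ⟨hqlt, ⟨hq1, hqsf, hqp⟩, hqd⟩ := hq
    have hqne : q ≠ 0 := by omega
    refine Finset.mem_filter.2 ⟨Finset.mem_powerset.2 ?_, ?_⟩
    · intro p hp
      have hpp := Nat.prime_of_mem_primeFactors hp
      have hpd := Nat.dvd_of_mem_primeFactors hp
      refine Finset.mem_filter.2 ⟨Nat.mem_primeFactors.2 ⟨hpp, ?_, hdne⟩, hqp p hpp hpd⟩
      have : (q : ℤ).natAbs ∣ Δ.natAbs := Int.natAbs_dvd_natAbs.2 hqd
      rw [Int.natAbs_natCast] at this
      exact hpd.trans this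
    · -- size
      have h1 : n ^ q.primeFactors.card ≤ ∏ p ∈ q.primeFactors, p :=
        pow_card_le_prod n _ fun p hp =>
          hqp p (Nat.prime_of_mem_primeFactors hp) (Nat.dvd_of_mem_primeFactors hp)
      have h2 : (∏ p ∈ q.primeFactors, p) = q := Nat.prod_primeFactors_of_squarefree hqsf
      rw [h2] at h1
      have h3 : (2 ^ 400) ^ q.primeFactors.card ≤ n ^ q.primeFactors.card :=
        Nat.pow_le_pow_left hn _
      have h4 : 2 ^ (400 * q.primeFactors.card) < 2 ^ (16 * (t + 1)) := by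
        calc 2 ^ (400 * q.primeFactors.card) = (2 ^ 400) ^ q.primeFactors.card := by rw [pow_mul]
          _ ≤ q := h3.trans h1
          _ < (2 ^ 16) ^ (t + 1) := hqlt
          _ = 2 ^ (16 * (t + 1)) := by rw [pow_mul]
      have h5 := (Nat.pow_lt_pow_iff_right (by norm_num : 1 < 2)).1 h4
      omega
  have hinj : Set.InjOn Nat.primeFactors
      ((Finset.range ((2 ^ 16) ^ (t + 1))).filter (fun q => InF n q ∧ (q : ℤ) ∣ Δ) : Finset ℕ) := by
    intro a ha b hb hab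
    have ha' := (Finset.mem_filter.1 (Finset.mem_coe.1 ha)).2.1
    have hb' := (Finset.mem_filter.1 (Finset.mem_coe.1 hb)).2.1
    rw [← Nat.prod_primeFactors_of_squarefree ha'.2.1, ← Nat.prod_primeFactors_of_squarefree hb'.2.1, hab]
  calc ((Finset.range ((2 ^ 16) ^ (t + 1))).filter fun q => InF n q ∧ (q : ℤ) ∣ Δ).card
      ≤ (W.powerset.filter fun A => A.card ≤ t / 25).card := Finset.card_le_card_of_injOn _ hmaps hinj
    _ ≤ 2 ^ (t - 1) := card_small_subsets_le_pow W t ht hWcard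

lemma D_pos (G : Finset ℕ) (hG : ∀ p ∈ G, 0 < p) : 0 < D G := Finset.prod_pos hG

/-- Subset products of primes are distinct. -/
lemma D_injOn (G : Finset ℕ) (hG : ∀ p ∈ G, p.Prime) {S S' : Finset ℕ} (hS : S ⊆ G) (hS' : S' ⊆ G)
    (h : D S = D S') : S = S' := by
  have key : ∀ T, T ⊆ G → (D T).primeFactors = T := by
    intro T hT
    exact Nat.primeFactors_prod fun p hp => hG p (hT hp)
  rw [← key S hS, ← key S' hS', h]

/-- A subset product is bounded by `(n^2)^|G|`. -/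
lemma D_le (n : ℕ) (G : Finset ℕ) (hG : ∀ p ∈ G, 0 < p ∧ p ≤ n ^ 2) {S : Finset ℕ} (hS : S ⊆ G)
    (hn : 0 < n) : D S ≤ (n ^ 2) ^ G.card := by
  have h1 : D S ≤ (n ^ 2) ^ S.card := by
    calc D S = ∏ p ∈ S, p := rfl
      _ ≤ ∏ _p ∈ S, n ^ 2 := Finset.prod_le_prod' fun p hp => (hG p (hS hp)).2
      _ = (n ^ 2) ^ S.card := by simp
  exact h1.trans (Nat.pow_le_pow_right (by positivity) (Finset.card_le_card hS))

open Classical in
/-- **Step (3a)**: the number of bad `q` at scale `t` for a single generator set. -/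
theorem card_bad_le (n t : ℕ) (hn : 2 ^ 400 ≤ n) (G : Finset ℕ) (hG : ∀ p ∈ G, p.Prime ∧ p ≤ n ^ 2)
    (hcard : G.card = 14 * t) (ht : 4 ≤ t) :
    ((Finset.range ((2 ^ 16) ^ (t + 1))).filter
      fun q => InF n q ∧ 2 ^ (14 * t) < coll q G).card ≤ 2 ^ (15 * t - 1) := by
  classical
  have hnpos : 0 < n := lt_of_lt_of_le (by norm_num) hn
  set Fam := (Finset.range ((2 ^ 16) ^ (t + 1))).filter fun q => InF n q with hFam
  set Pairs := (G.powerset ×ˢ G.powerset).filter fun x => x.1 ≠ x.2 with hPairs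
  have hPcard : Pairs.card ≤ 2 ^ (28 * t) := by
    calc Pairs.card ≤ (G.powerset ×ˢ G.powerset).card := Finset.card_filter_le _ _
      _ = 2 ^ (14 * t) * 2 ^ (14 * t) := by
          rw [Finset.card_product, Finset.card_powerset, hcard]
      _ = 2 ^ (28 * t) := by rw [← pow_add]; congr 1; ring
  -- double counting
  have hdouble : ∑ q ∈ Fam, coll q G ≤ 2 ^ (28 * t) * 2 ^ (t - 1) := by
    have h1 : ∀ q ∈ Fam, coll q G = ∑ x ∈ Pairs, if ((q : ℤ) ∣ (D x.1 : ℤ) - (D x.2 : ℤ)) then 1 else 0 := by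
      intro q _
      rw [coll, Finset.card_eq_sum_ones, Finset.sum_filter, hPairs, Finset.sum_filter]
      refine Finset.sum_congr rfl fun x _ => ?_
      by_cases h1 : x.1 ≠ x.2 <;> by_cases h2 : ((q : ℤ) ∣ (D x.1 : ℤ) - (D x.2 : ℤ)) <;> simp [h1, h2]
    rw [Finset.sum_congr rfl h1, Finset.sum_comm]
    have h2 : ∀ x ∈ Pairs, (∑ q ∈ Fam, if ((q : ℤ) ∣ (D x.1 : ℤ) - (D x.2 : ℤ)) then 1 else 0) ≤ 2 ^ (t - 1) := by
      intro x hx
      obtain ⟨hx1, hx2⟩ := Finset.mem_filter.1 hx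
      obtain ⟨hS, hS'⟩ := Finset.mem_product.1 hx1
      have hS := Finset.mem_powerset.1 hS
      have hS' := Finset.mem_powerset.1 hS'
      have hpr : ∀ p ∈ G, p.Prime := fun p hp => (hG p hp).1
      have hG' : ∀ p ∈ G, 0 < p ∧ p ≤ n ^ 2 := fun p hp => ⟨(hG p hp).1.pos, (hG p hp).2⟩
      have hΔ : (D x.1 : ℤ) - (D x.2 : ℤ) ≠ 0 := by
        intro h
        have : (D x.1 : ℤ) = D x.2 := sub_eq_zero.1 h
        exact hx2 (D_injOn G hpr hS hS' (by exact_mod_cast this))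
      have hle1 := D_le n G hG' hS hnpos
      have hle2 := D_le n G hG' hS' hnpos
      have hbound : ((D x.1 : ℤ) - (D x.2 : ℤ)).natAbs ≤ n ^ (28 * t) := by
        have h3 : (n ^ 2) ^ G.card = n ^ (28 * t) := by
          rw [hcard, ← pow_mul]; congr 1; ring
        rw [h3] at hle1 hle2
        have hnn : ((D x.1 : ℤ) - (D x.2 : ℤ)).natAbs ≤ max (D x.1) (D x.2) := by
          omega
        exact hnn.trans (max_le hle1 hle2)
      have h4 := card_dvd_le n t hn ht _ hΔ hbound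
      have h5 : (∑ q ∈ Fam, if ((q : ℤ) ∣ (D x.1 : ℤ) - (D x.2 : ℤ)) then 1 else 0) =
          ((Finset.range ((2 ^ 16) ^ (t + 1))).filter
            fun q => InF n q ∧ (q : ℤ) ∣ (D x.1 : ℤ) - (D x.2 : ℤ)).card := by
        rw [Finset.card_eq_sum_ones, Finset.sum_filter, Finset.sum_filter]
        refine Finset.sum_congr rfl fun q _ => ?_
        by_cases h1 : InF n q <;> by_cases h2 : ((q : ℤ) ∣ (D x.1 : ℤ) - (D x.2 : ℤ)) <;> simp [h1, h2]
      rw [h5]; exact h4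
    calc ∑ x ∈ Pairs, ∑ q ∈ Fam, (if ((q : ℤ) ∣ (D x.1 : ℤ) - (D x.2 : ℤ)) then 1 else 0)
        ≤ ∑ _x ∈ Pairs, 2 ^ (t - 1) := Finset.sum_le_sum h2
      _ = Pairs.card * 2 ^ (t - 1) := by simp
      _ ≤ 2 ^ (28 * t) * 2 ^ (t - 1) := Nat.mul_le_mul_right _ hPcard
  -- conclude
  set B := (Finset.range ((2 ^ 16) ^ (t + 1))).filter fun q => InF n q ∧ 2 ^ (14 * t) < coll q G with hB
  have hBsub : B ⊆ Fam := by
    intro q hq
    obtain ⟨h1, h2, _⟩ := Finset.mem_filter.1 hq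
    exact Finset.mem_filter.2 ⟨h1, h2⟩
  have h3 : B.card * 2 ^ (14 * t) ≤ ∑ q ∈ Fam, coll q G := by
    calc B.card * 2 ^ (14 * t) = ∑ _q ∈ B, 2 ^ (14 * t) := by simp
      _ ≤ ∑ q ∈ B, coll q G := Finset.sum_le_sum fun q hq => (Finset.mem_filter.1 hq).2.2.le
      _ ≤ ∑ q ∈ Fam, coll q G := Finset.sum_le_sum_of_subset_of_nonneg hBsub fun _ _ _ => Nat.zero_le _
  have h4 : B.card * 2 ^ (14 * t) ≤ 2 ^ (15 * t - 1) * 2 ^ (14 * t) := by
    refine h3.trans (hdouble.trans ?_)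
    rw [← pow_add, ← pow_add]
    refine Nat.pow_le_pow_right (by norm_num) ?_
    omega
  exact Nat.le_of_mul_le_mul_right h4 (by positivity)

/-! ### Step (3d): density of good numbers -/

/-- Multiples of `d` in an interval of length `L`. -/
lemma card_mult_le (a L d : ℕ) (hd : 0 < d) :
    ((Finset.Ioc a (a + L)).filter fun q => d ∣ q).card ≤ L / d + 1 := by
  classical
  have h1 : ((Finset.Ioc 0 (a + L)).filter fun q => d ∣ q).card = (a + L) / d :=
    Nat.Ioc_filter_dvd_card_eq_div _ _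
  have h2 : ((Finset.Ioc 0 a).filter fun q => d ∣ q).card = a / d :=
    Nat.Ioc_filter_dvd_card_eq_div _ _
  have h3 : (Finset.Ioc 0 (a + L)).filter (fun q => d ∣ q) =
      (Finset.Ioc 0 a).filter (fun q => d ∣ q) ∪ (Finset.Ioc a (a + L)).filter fun q => d ∣ q := by
    ext q
    simp only [Finset.mem_filter, Finset.mem_union, Finset.mem_Ioc]
    constructor
    · rintro ⟨⟨h4, h5⟩, h6⟩
      by_cases h7 : q ≤ a
      · exact Or.inl ⟨⟨h4, h7⟩, h6⟩
      · exact Or.inr ⟨⟨by omega, h5⟩, h6⟩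
    · rintro (⟨⟨h4, h5⟩, h6⟩ | ⟨⟨h4, h5⟩, h6⟩)
      · exact ⟨⟨h4, by omega⟩, h6⟩
      · exact ⟨⟨by omega, h5⟩, h6⟩
  have h4 : Disjoint ((Finset.Ioc 0 a).filter fun q => d ∣ q)
      ((Finset.Ioc a (a + L)).filter fun q => d ∣ q) := by
    rw [Finset.disjoint_left]
    intro q hq hq'
    have := (Finset.mem_Ioc.1 (Finset.mem_filter.1 hq).1).2
    have := (Finset.mem_Ioc.1 (Finset.mem_filter.1 hq').1).1
    omega
  have h5 := Finset.card_union_of_disjoint h4
  rw [← h3, h1, h2] at h5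
  have h6 : (a + L) / d ≤ a / d + L / d + 1 := by
    rw [← Nat.lt_succ_iff, Nat.div_lt_iff_lt_mul hd]
    have h7 := Nat.lt_mul_div_succ a hd
    have h8 := Nat.lt_mul_div_succ L hd
    have h9 : d * (a / d + L / d + 1 + 1) = d * (a / d + 1) + d * (L / d + 1) := by ring
    rw [Nat.succ_eq_add_one, mul_comm, h9]
    omega
  omega

/-- Telescoping bound for `∑ 1/m²`. -/
lemma sum_inv_sq_le (M : ℕ) :
    ∑ m ∈ Finset.Icc 2 M, (1 : ℚ) / (m : ℚ) ^ 2 ≤ 3 / 4 := by
  have key : ∀ M : ℕ, 2 ≤ M → ∑ m ∈ Finset.Icc 2 M, (1 : ℚ) / (m : ℚ) ^ 2 ≤ 3 / 4 - 1 / M := by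
    intro M hM
    induction M, hM using Nat.le_induction with
    | base => norm_num
    | succ M hM ih =>
      rw [Finset.sum_Icc_succ_top (by omega)]
      have hM0 : (0 : ℚ) < M := by exact_mod_cast (by omega : 0 < M)
      have h1 : (1 : ℚ) / ((M + 1 : ℕ) : ℚ) ^ 2 ≤ 1 / M - 1 / ((M + 1 : ℕ) : ℚ) := by
        push_cast
        rw [div_sub_div _ _ hM0.ne' (by positivity), div_le_div_iff₀ (by positivity) (by positivity)]
        nlinarith
      linarith
  by_cases hM : 2 ≤ M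
  · have h := key M hM
    have : (0 : ℚ) ≤ 1 / M := by positivity
    linarith
  · rw [Finset.Icc_eq_empty (by omega)]
    norm_num

/-- `∑_{4 ≤ t ≤ w} 2^(-t) ≤ 1/8`. -/
lemma sum_two_pow_neg_le (w : ℕ) :
    ∑ t ∈ Finset.Icc 4 w, ((1 : ℚ) / 2) ^ t ≤ 1 / 8 := by
  have key : ∀ w : ℕ, 4 ≤ w → ∑ t ∈ Finset.Icc 4 w, ((1 : ℚ) / 2) ^ t = 1 / 8 - (1 / 2) ^ w := by
    intro w hw
    induction w, hw using Nat.le_induction with
    | base => norm_num
    | succ w hw ih =>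
      rw [Finset.sum_Icc_succ_top (by omega), ih, pow_succ]
      ring
  by_cases hw : 4 ≤ w
  · rw [key w hw]
    have : (0 : ℚ) ≤ (1 / 2) ^ w := by positivity
    linarith
  · rw [Finset.Icc_eq_empty (by omega)]
    norm_num

/-- `∑_{t ≤ w} 2^(15 t) ≤ 2 * 2^(15 w)`. -/
lemma sum_two_pow_le (w : ℕ) :
    ∑ t ∈ Finset.Icc 4 w, (2 : ℚ) ^ (15 * t) ≤ 2 * 2 ^ (15 * w) := by
  induction w with
  | zero => simp
  | succ w ih =>
    by_cases hw : 4 ≤ w + 1
    · rw [Finset.sum_Icc_succ_top hw]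
      have h1 : (2 : ℚ) ^ (15 * (w + 1)) = 2 ^ 15 * 2 ^ (15 * w) := by
        rw [← pow_add]; congr 1; ring
      rw [h1]
      have h2 : (0 : ℚ) < 2 ^ (15 * w) := by positivity
      nlinarith
    · rw [Finset.Icc_eq_empty (by omega)]
      simp only [Finset.sum_empty]
      positivity

open Classical in
/-- **Step (3d)**: density of good numbers. -/
theorem exists_good (w' v : ℕ) (Bad : ℕ → Prop)
    (hB : ∀ t ≤ w', ((Finset.range ((2 ^ 16) ^ (t + 1))).filter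
        fun q => Bad q ∧ Nat.log (2 ^ 16) q = t).card ≤ 2 ^ (15 * t))
    (hB0 : ∀ q, Bad q → 4 ≤ Nat.log (2 ^ 16) q)
    (hv : v ≤ (2 ^ 16) ^ w') (hL : 2 ^ (15 * w' + 6) ≤ v) :
    ∃ q, v - 2 ^ (15 * w' + 6) < q ∧ q ≤ v ∧ Squarefree q ∧ ∀ d, d ∣ q → ¬ Bad d := by
  set L := 2 ^ (15 * w' + 6) with hLdef
  set X : ℕ := 2 ^ (15 * w') with hX
  have hLX : L = 64 * X := by rw [hLdef, hX, pow_add]; ring
  have hXpos : 0 < X := by positivity
  obtain ⟨a, rfl⟩ : ∃ a, v = a + L := ⟨v - L, by omega⟩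
  have haL : a + L - L = a := by omega
  set I := Finset.Ioc a (a + L) with hI
  have hIcard : I.card = L := by rw [hI, Nat.card_Ioc]; omega
  set M : ℕ := 2 ^ (8 * w') with hM
  -- non-squarefree
  set NS := (Finset.Icc 2 M).biUnion fun m => I.filter fun q => m ^ 2 ∣ q with hNS
  -- multiples of bad numbers
  set BadT : ℕ → Finset ℕ := fun t => (Finset.range ((2 ^ 16) ^ (t + 1))).filter
        fun q => Bad q ∧ Nat.log (2 ^ 16) q = t with hBadT
  set BD := (Finset.Icc 4 w').biUnion fun t => (BadT t).biUnion fun d => I.filter fun q => d ∣ q with hBD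
  have hLq : (0 : ℚ) ≤ L := by positivity
  -- count `NS`
  have hNScard : (NS.card : ℚ) ≤ 3 / 4 * L + M := by
    have h1 : (NS.card : ℚ) ≤ ∑ m ∈ Finset.Icc 2 M, ((I.filter fun q => m ^ 2 ∣ q).card : ℚ) := by
      exact_mod_cast Finset.card_biUnion_le
    have h2 : ∀ m ∈ Finset.Icc 2 M, ((I.filter fun q => m ^ 2 ∣ q).card : ℚ) ≤ L * (1 / (m : ℚ) ^ 2) + 1 := by
      intro m hm
      have hm2 : 2 ≤ m := (Finset.mem_Icc.1 hm).1
      have hm0 : 0 < m ^ 2 := by positivity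
      have h3 := card_mult_le a L (m ^ 2) hm0
      have h4 : (((I.filter fun q => m ^ 2 ∣ q).card : ℕ) : ℚ) ≤ ((L / m ^ 2 : ℕ) : ℚ) + 1 := by
        exact_mod_cast h3
      have h5 : ((L / m ^ 2 : ℕ) : ℚ) ≤ (L : ℚ) / ((m ^ 2 : ℕ) : ℚ) := Nat.cast_div_le
      push_cast at h5
      have h6 : (L : ℚ) / (m : ℚ) ^ 2 = L * (1 / (m : ℚ) ^ 2) := by ring
      linarith
    have h7 := Finset.sum_le_sum h2
    rw [Finset.sum_add_distrib, ← Finset.mul_sum] at h7
    have h8 := sum_inv_sq_le M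
    have h9 : ∑ _m ∈ Finset.Icc 2 M, (1 : ℚ) ≤ M := by
      simp only [Finset.sum_const, Nat.card_Icc, nsmul_eq_mul, mul_one]
      exact_mod_cast (Nat.sub_le_iff_le_add.2 (by linarith) : M + 1 - 2 ≤ M)
    have h10 := mul_le_mul_of_nonneg_left h8 hLq
    linarith
  -- count `BD`
  have hBDcard : (BD.card : ℚ) ≤ 1 / 8 * L + 2 * X := by
    have h1 : (BD.card : ℚ) ≤ ∑ t ∈ Finset.Icc 4 w', (((BadT t).biUnion fun d => I.filter fun q => d ∣ q).card : ℚ) := by
      exact_mod_cast Finset.card_biUnion_le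
    have h2 : ∀ t ∈ Finset.Icc 4 w', (((BadT t).biUnion fun d => I.filter fun q => d ∣ q).card : ℚ) ≤
        L * (1 / 2) ^ t + (2 : ℚ) ^ (15 * t) := by
      intro t ht
      have ht' := Finset.mem_Icc.1 ht
      have h3 : (((BadT t).biUnion fun d => I.filter fun q => d ∣ q).card : ℚ) ≤
          ∑ d ∈ BadT t, ((I.filter fun q => d ∣ q).card : ℚ) := by
        exact_mod_cast Finset.card_biUnion_le
      have h4 : ∀ d ∈ BadT t, ((I.filter fun q => d ∣ q).card : ℚ) ≤ L * (1 / (2 : ℚ) ^ (16 * t)) + 1 := by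
        intro d hd
        obtain ⟨_, hd1, hd2⟩ := Finset.mem_filter.1 hd
        have hlog := hB0 d hd1
        have hd0 : d ≠ 0 := by
          rintro rfl
          simp at hlog
        have hdge : (2 ^ 16) ^ t ≤ d := by
          rw [← hd2]
          exact Nat.pow_log_le_self _ hd0
        have hdpos : 0 < d := Nat.pos_of_ne_zero hd0
        have h5 := card_mult_le a L d hdpos
        have h6 : (((I.filter fun q => d ∣ q).card : ℕ) : ℚ) ≤ ((L / d : ℕ) : ℚ) + 1 := by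
          exact_mod_cast h5
        have h7 : ((L / d : ℕ) : ℚ) ≤ (L : ℚ) / d := Nat.cast_div_le
        have h8 : (2 : ℚ) ^ (16 * t) ≤ d := by
          rw [pow_mul]
          exact_mod_cast hdge
        have h9 : (L : ℚ) / d ≤ L * (1 / (2 : ℚ) ^ (16 * t)) := by
          rw [div_eq_mul_one_div]
          refine mul_le_mul_of_nonneg_left ?_ hLq
          exact one_div_le_one_div_of_le (by positivity) h8
        linarith
      have h10 := h3.trans (Finset.sum_le_sum h4)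
      rw [Finset.sum_const, nsmul_eq_mul] at h10
      have h11 : ((BadT t).card : ℚ) ≤ (2 : ℚ) ^ (15 * t) := by
        exact_mod_cast hB t ht'.2
      have h12 : (0 : ℚ) ≤ L * (1 / (2 : ℚ) ^ (16 * t)) + 1 := by positivity
      have h13 : ((BadT t).card : ℚ) * (L * (1 / (2 : ℚ) ^ (16 * t)) + 1) ≤
          (2 : ℚ) ^ (15 * t) * (L * (1 / (2 : ℚ) ^ (16 * t)) + 1) :=
        mul_le_mul_of_nonneg_right h11 h12
      have h14 : (2 : ℚ) ^ (15 * t) * (L * (1 / (2 : ℚ) ^ (16 * t)) + 1) = L * (1 / 2) ^ t + (2 : ℚ) ^ (15 * t) := by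
        have h15 : (2 : ℚ) ^ (16 * t) = 2 ^ (15 * t) * 2 ^ t := by
          rw [← pow_add]; congr 1; ring
        rw [h15, one_div_pow]
        field_simp
      linarith
    have h7 := Finset.sum_le_sum h2
    rw [Finset.sum_add_distrib, ← Finset.mul_sum] at h7
    have h8 := sum_two_pow_neg_le w'
    have h9 := sum_two_pow_le w'
    have h10 := mul_le_mul_of_nonneg_left h8 hLq
    have h11 : ((X : ℕ) : ℚ) = (2 : ℚ) ^ (15 * w') := by rw [hX]; push_cast; rfl
    rw [h11]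
    linarith
  have hMX : (M : ℚ) ≤ X := by
    have : M ≤ X := by
      rw [hM, hX]
      exact Nat.pow_le_pow_right (by norm_num) (by omega)
    exact_mod_cast this
  have hLXq : (L : ℚ) = 64 * X := by rw [hLX]; push_cast; ring
  have hXq : (0 : ℚ) < X := by exact_mod_cast hXpos
  -- so some element of `I` is in neither
  have hlt : (NS ∪ BD).card < I.card := by
    have h1 : ((NS ∪ BD).card : ℚ) ≤ NS.card + BD.card := by
      exact_mod_cast Finset.card_union_le _ _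
    have h2 : ((NS ∪ BD).card : ℚ) < I.card := by
      rw [hIcard]
      nlinarith
    exact_mod_cast h2
  obtain ⟨q, hqI, hqn⟩ : ∃ q ∈ I, q ∉ NS ∪ BD := by
    by_contra hcon
    push Not at hcon
    exact absurd (Finset.card_le_card (show I ⊆ NS ∪ BD from hcon)) (not_le.2 hlt)
  have hq := Finset.mem_Ioc.1 hqI
  have hqpos : 0 < q := by omega
  have hqv : q ≤ (2 ^ 16) ^ w' := hq.2.trans hv
  refine ⟨q, by omega, hq.2, ?_, ?_⟩
  · -- squarefree
    rw [Nat.squarefree_iff_prime_squarefree]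
    rintro p hp hpq
    apply hqn
    refine Finset.mem_union_left _ (Finset.mem_biUnion.2 ⟨p, Finset.mem_Icc.2 ⟨hp.two_le, ?_⟩,
      Finset.mem_filter.2 ⟨hqI, by rwa [pow_two]⟩⟩)
    have h1 : p * p ≤ q := Nat.le_of_dvd hqpos hpq
    by_contra hcon
    push Not at hcon
    have h2 : 2 ^ (8 * w') + 1 ≤ p := hcon
    have h3 : (2 ^ (8 * w')) * (2 ^ (8 * w')) < p * p := by
      have : 2 ^ (8 * w') < p := hcon
      exact Nat.mul_lt_mul'' this this
    have h4 : (2 ^ (8 * w')) * (2 ^ (8 * w')) = (2 ^ 16) ^ w' := by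
      rw [← pow_add, ← pow_mul]; congr 1; ring
    omega
  · intro d hd hbad
    apply hqn
    have hd0 : 0 < d := Nat.pos_of_dvd_of_pos hd hqpos
    have hdle : d ≤ (2 ^ 16) ^ w' := (Nat.le_of_dvd hqpos hd).trans hqv
    set t := Nat.log (2 ^ 16) d with ht
    have ht4 := hB0 d hbad
    have htw : t ≤ w' := by
      have h1 : Nat.log (2 ^ 16) d ≤ Nat.log (2 ^ 16) ((2 ^ 16) ^ w') := Nat.log_mono_right hdle
      rwa [Nat.log_pow (by norm_num)] at h1
    refine Finset.mem_union_right _ (Finset.mem_biUnion.2 ⟨t, Finset.mem_Icc.2 ⟨ht4, htw⟩,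
      Finset.mem_biUnion.2 ⟨d, Finset.mem_filter.2 ⟨Finset.mem_range.2 ?_, hbad, ht.symm⟩,
        Finset.mem_filter.2 ⟨hqI, hd⟩⟩⟩)
    exact Nat.lt_pow_succ_log_self (by norm_num) _

/-- The scale of `q`: `E^t ≤ q < E^(t+1)`, `E = 2^16`. -/
def scale (q : ℕ) : ℕ := Nat.log (2 ^ 16) q

/-- The bad moduli for a system of generator sets `G₁ t`, `G₂ t` (`t ≤ w`). -/
def IsBad (n w : ℕ) (G₁ G₂ : ℕ → Finset ℕ) (q : ℕ) : Prop :=
  InF n q ∧ scale q ≤ w ∧
    (2 ^ (14 * scale q) < coll q (G₁ (scale q)) ∨ 2 ^ (14 * scale q) < coll q (G₂ (scale q)))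

/-- A number is `Good` if it is squarefree without bad divisors. -/
def IsGood (n w : ℕ) (G₁ G₂ : ℕ → Finset ℕ) (q : ℕ) : Prop :=
  Squarefree q ∧ ∀ d, d ∣ q → ¬ IsBad n w G₁ G₂ d

/-- Elements of the family are large. -/
lemma scale_ge_of_InF {n q : ℕ} (hn : 2 ^ 400 ≤ n) (h : InF n q) : 4 ≤ scale q := by
  obtain ⟨h1, _, h3⟩ := h
  obtain ⟨p, hp, hpq⟩ := Nat.exists_prime_and_dvd (by omega : q ≠ 1)
  have h4 : n < p := h3 p hp hpq
  have h5 : p ≤ q := Nat.le_of_dvd (by omega) hpq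
  have h6 : (2 ^ 16) ^ 4 ≤ q := by
    have : (2 ^ 16) ^ 4 ≤ 2 ^ 400 := by norm_num
    omega
  exact (Nat.le_log_iff_pow_le (by norm_num) (by omega)).2 h6

open Classical in
/-- **Step (3a), final form**: the number of bad `q` at scale `t ≤ w` is at most `2^(15 t)`. -/
theorem card_isBad_le (n w : ℕ) (hn : 2 ^ 400 ≤ n) (G₁ G₂ : ℕ → Finset ℕ)
    (hG₁ : ∀ t ≤ w, (∀ p ∈ G₁ t, p.Prime ∧ p ≤ n ^ 2) ∧ (G₁ t).card = 14 * t)
    (hG₂ : ∀ t ≤ w, (∀ p ∈ G₂ t, p.Prime ∧ p ≤ n ^ 2) ∧ (G₂ t).card = 14 * t) (t : ℕ) :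
    ((Finset.range ((2 ^ 16) ^ (t + 1))).filter
        fun q => IsBad n w G₁ G₂ q ∧ Nat.log (2 ^ 16) q = t).card ≤ 2 ^ (15 * t) := by
  by_cases ht : 4 ≤ t ∧ t ≤ w
  · obtain ⟨ht4, htw⟩ := ht
    have h1 := card_bad_le n t hn (G₁ t) (hG₁ t htw).1 (hG₁ t htw).2 ht4
    have h2 := card_bad_le n t hn (G₂ t) (hG₂ t htw).1 (hG₂ t htw).2 ht4
    have hsub : ((Finset.range ((2 ^ 16) ^ (t + 1))).filter
        fun q => IsBad n w G₁ G₂ q ∧ Nat.log (2 ^ 16) q = t) ⊆
        ((Finset.range ((2 ^ 16) ^ (t + 1))).filter fun q => InF n q ∧ 2 ^ (14 * t) < coll q (G₁ t)) ∪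
        ((Finset.range ((2 ^ 16) ^ (t + 1))).filter fun q => InF n q ∧ 2 ^ (14 * t) < coll q (G₂ t)) := by
      intro q hq
      obtain ⟨hq1, ⟨hq2, _, hq3⟩, hq4⟩ := Finset.mem_filter.1 hq
      change Nat.log (2 ^ 16) q = t at hq4
      have hs : scale q = t := hq4
      rw [hs] at hq3
      rcases hq3 with hq3 | hq3
      · exact Finset.mem_union_left _ (Finset.mem_filter.2 ⟨hq1, hq2, hq3⟩)
      · exact Finset.mem_union_right _ (Finset.mem_filter.2 ⟨hq1, hq2, hq3⟩)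
    refine (Finset.card_le_card hsub).trans ((Finset.card_union_le _ _).trans ?_)
    have h3 : 2 ^ (15 * t) = 2 ^ (15 * t - 1) + 2 ^ (15 * t - 1) := by
      rw [← two_mul, ← pow_succ']
      congr 1
      omega
    omega
  · rw [Finset.card_eq_zero.2, ]
    · exact Nat.zero_le _
    · refine Finset.filter_eq_empty_iff.2 fun q _ hq => ht ?_
      obtain ⟨hq1, hq2⟩ := hq
      have hs : scale q = t := hq2
      exact ⟨hs ▸ scale_ge_of_InF hn hq1.1, hs ▸ hq1.2.1⟩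

/-- **Step (3d), final form**: good numbers are dense. -/
theorem exists_isGood (n w : ℕ) (hn : 2 ^ 400 ≤ n) (G₁ G₂ : ℕ → Finset ℕ)
    (hG₁ : ∀ t ≤ w, (∀ p ∈ G₁ t, p.Prime ∧ p ≤ n ^ 2) ∧ (G₁ t).card = 14 * t)
    (hG₂ : ∀ t ≤ w, (∀ p ∈ G₂ t, p.Prime ∧ p ≤ n ^ 2) ∧ (G₂ t).card = 14 * t)
    (w' v : ℕ) (hv : v ≤ (2 ^ 16) ^ w') (hL : 2 ^ (15 * w' + 6) ≤ v) :
    ∃ q, v - 2 ^ (15 * w' + 6) < q ∧ q ≤ v ∧ IsGood n w G₁ G₂ q := by
  classical
  obtain ⟨q, h1, h2, h3, h4⟩ := exists_good w' v (IsBad n w G₁ G₂)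
    (fun t _ => by convert card_isBad_le n w hn G₁ G₂ hG₁ hG₂ t)
    (fun q hq => scale_ge_of_InF hn hq.1) hv hL
  exact ⟨q, h1, h2, h3, h4⟩

end Crest.Agent.Lib.Egyptian.ToolBad
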