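/-
Steps (5), (6) of the Egyptian-fraction proof (finding #726), abstractly:
`Good` numerators with (a) unit-fraction representation over multiples of `R` and
(b) density in short intervals yield the digit expansion.
-/
import Mathlib

set_option autoImplicit false

namespace Crest.Agent.Lib.Egyptian

/-- `UF r k`: `r` is a sum of at most `k` reciprocals of positive integers (repetitions allowed). -/
def UF (r : ℚ) (k : ℕ) : Prop :=
  ∃ l : List ℕ, l.length ≤ k ∧ (∀ n ∈ l, 0 < n) ∧ (l.map (fun n : ℕ => (1 : ℚ) / n)).sum = r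

lemma UF.mono {r : ℚ} {k m : ℕ} (h : UF r k) (hkm : k ≤ m) : UF r m := by
  obtain ⟨l, h1, h2, h3⟩ := h
  exact ⟨l, h1.trans hkm, h2, h3⟩

lemma UF.zero (k : ℕ) : UF 0 k := ⟨[], by simp, by simp, by simp⟩

lemma UF.add {r s : ℚ} {k m : ℕ} (h : UF r k) (h' : UF s m) : UF (r + s) (k + m) := by
  obtain ⟨l, h1, h2, h3⟩ := h
  obtain ⟨l', h1', h2', h3'⟩ := h'
  refine ⟨l ++ l', ?_, ?_, ?_⟩
  · simpa using add_le_add h1 h1'
  · intro n hn
    rcases List.mem_append.mp hn with hn | hn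
    · exact h2 n hn
    · exact h2' n hn
  · rw [List.map_append, List.sum_append, h3, h3']

lemma UF.unit {n : ℕ} (hn : 0 < n) : UF ((1 : ℚ) / n) 1 :=
  ⟨[n], by simp, by simpa using hn, by simp⟩

/-- If `v ∣ T`, `0 < v`, `0 < T` then `v / T` is a single unit fraction. -/
lemma UF.of_dvd {v T : ℕ} (hv : 0 < v) (hT : 0 < T) (h : v ∣ T) : UF ((v : ℚ) / T) 1 := by
  obtain ⟨c, rfl⟩ := h
  have hc : 0 < c := Nat.pos_of_mul_pos_left hT |> fun h => by
    rcases Nat.eq_zero_or_pos c with h0 | h0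
    · simp [h0] at hT
    · exact h0
  have := UF.unit hc
  have hv' : (v : ℚ) ≠ 0 := by positivity
  have hc' : (c : ℚ) ≠ 0 := by positivity
  convert this using 1
  push_cast
  field_simp

/-- One digit step. -/
lemma digit_step (R L Q G : ℕ) (Good : ℕ → Prop)
    (hUF : ∀ q T : ℕ, Good q → 0 < T → R ∣ T → UF ((q : ℚ) / T) 8)
    (hD : ∀ v : ℕ, L ≤ v → v ≤ Q → ∃ q : ℕ, Good q ∧ v < q + L ∧ q ≤ v)
    (hGL : G * L ≤ Q)
    {ρ : ℚ} (hρ0 : 0 ≤ ρ) {T m : ℕ} (hT : 0 < T) (hRT : R ∣ T) (hρL : ρ * T < L)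
    (hm : 0 < m) (hmG : m ≤ G) :
    ∃ ρ' : ℚ, 0 ≤ ρ' ∧ ρ' * ((T * m : ℕ) : ℚ) < L ∧ UF (ρ - ρ') 8 ∧
      (∃ q : ℕ, ρ' = ρ - (q : ℚ) / ((T * m : ℕ) : ℚ)) := by
  have hTm : 0 < T * m := Nat.mul_pos hT hm
  have hTmq : (0 : ℚ) < ((T * m : ℕ) : ℚ) := by exact_mod_cast hTm
  set x : ℚ := ρ * ((T * m : ℕ) : ℚ) with hx
  have hx0 : 0 ≤ x := by positivity
  set v : ℕ := ⌊x⌋₊ with hv
  have hvx : (v : ℚ) ≤ x := Nat.floor_le hx0
  have hxv : x < v + 1 := Nat.lt_floor_add_one x
  by_cases hvL : L ≤ v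
  · -- subtract a good numerator
    have hLpos : (0:ℚ) ≤ L := by positivity
    have hxQ : x < (Q : ℚ) := by
      have h1 : x = (ρ * T) * m := by rw [hx]; push_cast; ring
      have h2 : (ρ * T) * m < L * m := by
        apply mul_lt_mul_of_pos_right hρL (by exact_mod_cast hm)
      have h3 : (L : ℚ) * m ≤ L * G := by
        apply mul_le_mul_of_nonneg_left _ hLpos
        exact_mod_cast hmG
      have h4 : (L : ℚ) * G ≤ Q := by
        have : (G * L : ℚ) ≤ Q := by exact_mod_cast hGL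
        linarith
      linarith
    have hvQ : v ≤ Q := by
      have : (v : ℚ) < Q := lt_of_le_of_lt hvx hxQ
      exact_mod_cast this.le
    obtain ⟨q, hq, hq1, hq2⟩ := hD v hvL hvQ
    refine ⟨ρ - (q : ℚ) / ((T * m : ℕ) : ℚ), ?_, ?_, ?_, q, rfl⟩
    · have hqx : (q : ℚ) ≤ x := le_trans (by exact_mod_cast hq2) hvx
      have : (q : ℚ) / ((T * m : ℕ) : ℚ) ≤ ρ := by
        rw [div_le_iff₀ hTmq]; exact hqx
      linarith
    · have : (ρ - (q : ℚ) / ((T * m : ℕ) : ℚ)) * ((T * m : ℕ) : ℚ) = x - q := by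
        rw [hx]; field_simp
      rw [this]
      have h5 : ((v : ℚ) + 1) ≤ q + L := by exact_mod_cast hq1
      linarith
    · have hh := hUF q (T * m) hq hTm (Dvd.dvd.mul_right hRT m)
      convert hh using 1
      ring
  · refine ⟨ρ, hρ0, ?_, ?_, 0, by simp⟩
    · have : ((v : ℚ) + 1) ≤ L := by
        have : v + 1 ≤ L := by omega
        exact_mod_cast this
      linarith
    · simpa using UF.zero 8

/-- The digit iteration: the invariant `ρ * T < L` is preserved along a list of digits,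
at the price of 8 terms per digit, and the remainder keeps the form `ρ₀ - Σ qᵢ / Tᵢ` which
stays integral after multiplying by the last modulus. -/
lemma digits_iter (R L Q G : ℕ) (Good : ℕ → Prop)
    (hUF : ∀ q T : ℕ, Good q → 0 < T → R ∣ T → UF ((q : ℚ) / T) 8)
    (hD : ∀ v : ℕ, L ≤ v → v ≤ Q → ∃ q : ℕ, Good q ∧ v < q + L ∧ q ≤ v)
    (hGL : G * L ≤ Q) (ms : List ℕ) (hms : ∀ m ∈ ms, 0 < m ∧ m ≤ G) :
    ∀ {ρ : ℚ} {T : ℕ}, 0 ≤ ρ → 0 < T → R ∣ T → ρ * T < L →
      ∀ N : ℕ, (T * ms.prod) ∣ N → (∃ z : ℤ, ρ * N = z) →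
      ∃ ρ' : ℚ, 0 ≤ ρ' ∧ ρ' * ((T * ms.prod : ℕ) : ℚ) < L ∧ UF (ρ - ρ') (8 * ms.length) ∧
        ∃ z : ℤ, ρ' * N = z := by
  induction ms with
  | nil =>
    intro ρ T h0 hT hRT hL N hN hz
    exact ⟨ρ, h0, by simpa using hL, by simpa using UF.zero 0, hz⟩
  | cons m ms ih =>
    intro ρ T h0 hT hRT hL N hN hz
    have hm := hms m (by simp)
    obtain ⟨ρ1, h1, h2, h3, q, hq⟩ :=
      digit_step R L Q G Good hUF hD hGL h0 hT hRT hL hm.1 hm.2
    have hTm : 0 < T * m := Nat.mul_pos hT hm.1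
    have hN' : T * m * ms.prod ∣ N := by
      simpa [List.prod_cons, mul_assoc] using hN
    have hz1 : ∃ z : ℤ, ρ1 * N = z := by
      obtain ⟨z, hz⟩ := hz
      obtain ⟨c, hc⟩ := hN'
      have hTmQ : ((T * m : ℕ) : ℚ) ≠ 0 := by exact_mod_cast hTm.ne'
      obtain ⟨P, hP⟩ : ∃ P, P = ms.prod := ⟨_, rfl⟩
      rw [← hP] at hc
      refine ⟨z - ((q * (P * c) : ℕ) : ℤ), ?_⟩
      have hT0 : (T : ℚ) ≠ 0 := by exact_mod_cast hT.ne'
      have hm0 : (m : ℚ) ≠ 0 := by exact_mod_cast hm.1.ne'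
      have e1 : ((q : ℚ) / ((T * m : ℕ) : ℚ)) * (N : ℚ) = ((q * (P * c) : ℕ) : ℚ) := by
        rw [hc]
        push_cast
        field_simp
      rw [hq, sub_mul, hz, e1]
      push_cast
      ring
    obtain ⟨ρ', h1', h2', h3', hz'⟩ := ih (fun x hx => hms x (by simp [hx])) h1 hTm
      (Dvd.dvd.mul_right hRT m) h2 N hN' hz1
    refine ⟨ρ', h1', ?_, ?_, hz'⟩
    · simpa [List.prod_cons, mul_assoc] using h2'
    · have := h3.add h3'
      have e : ρ - ρ1 + (ρ1 - ρ') = ρ - ρ' := by ring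
      rw [e] at this
      refine this.mono ?_
      simp only [List.length_cons]
      omega

/-- Level function: `E^w`. -/
def EE (w : ℕ) : ℕ := 2 ^ (16 * w)

/-- Interval length at level `w`. -/
def LL (w : ℕ) : ℕ := 2 ^ (15 * w + 6)

lemma LL_le_EE_next (w : ℕ) : LL w ≤ EE ((15 * w + 21) / 16) := by
  unfold LL EE
  apply Nat.pow_le_pow_right (by norm_num)
  omega

/-- The final chain (step 6): with the density of good numbers at all levels `≤ w`, an integer
numerator `v ≤ E^{w'}` over a multiple of `R` is a sum of few unit fractions.  The count is `8 c + 1` as long as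
`w' - 21 < (16/15)^c`. -/
lemma final_chain (R w : ℕ) (Good : ℕ → Prop)
    (hUF : ∀ q T : ℕ, Good q → 0 < T → R ∣ T → UF ((q : ℚ) / T) 8)
    (hD : ∀ w' : ℕ, w' ≤ w → 22 ≤ w' → ∀ v : ℕ, LL w' ≤ v → v ≤ EE w' →
      ∃ q : ℕ, Good q ∧ v < q + LL w' ∧ q ≤ v)
    (hBase : ∀ v : ℕ, 0 < v → v ≤ EE 21 → v ∣ R)
    (c : ℕ) :
    ∀ (w' v T : ℕ), w' ≤ w → ((w' : ℚ) - 21) < (16 / 15 : ℚ) ^ c → v ≤ EE w' → 0 < T → R ∣ T →
      UF ((v : ℚ) / T) (8 * c + 1) := by
  induction c with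
  | zero =>
    intro w' v T hw hc hv hT hRT
    have hw21 : w' ≤ 21 := by
      have : (w' : ℚ) < 22 := by
        simp at hc
        linarith
      have : w' < 22 := by exact_mod_cast this
      omega
    have hvE : v ≤ EE 21 := hv.trans (by unfold EE; exact Nat.pow_le_pow_right (by norm_num) (by omega))
    rcases Nat.eq_zero_or_pos v with h0 | h0
    · simp only [h0, Nat.cast_zero, zero_div]; exact UF.zero _
    · exact (UF.of_dvd h0 hT ((hBase v h0 hvE).trans hRT)).mono (by omega)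
  | succ c ih =>
    intro w' v T hw hc hv hT hRT
    by_cases hw21 : w' ≤ 21
    · have hvE : v ≤ EE 21 := hv.trans (by unfold EE; exact Nat.pow_le_pow_right (by norm_num) (by omega))
      rcases Nat.eq_zero_or_pos v with h0 | h0
      · simp only [h0, Nat.cast_zero, zero_div]; exact UF.zero _
      · exact (UF.of_dvd h0 hT ((hBase v h0 hvE).trans hRT)).mono (by omega)
    · have hw22 : 22 ≤ w' := by omega
      set w'' := (15 * w' + 21) / 16 with hw''
      have hw''le : w'' ≤ w' := by omega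
      have hw''c : ((w'' : ℚ) - 21) < (16 / 15 : ℚ) ^ c := by
        have h1 : 16 * w'' ≤ 15 * w' + 21 := by omega
        have h1q : (16 : ℚ) * w'' ≤ 15 * w' + 21 := by exact_mod_cast h1
        have h2 : (w' : ℚ) - 21 < (16 / 15 : ℚ) ^ c * (16 / 15) := by
          rw [pow_succ] at hc; exact hc
        have hp : (0 : ℚ) < (16 / 15 : ℚ) ^ c := by positivity
        nlinarith
      by_cases hvL : LL w' ≤ v
      · obtain ⟨q, hq, hq1, hq2⟩ := hD w' hw hw22 v hvL hv
        have hv' : v - q ≤ EE w'' := by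
          have : v - q ≤ LL w' := by omega
          exact this.trans (LL_le_EE_next w')
        have hh := ih w'' (v - q) T (hw''le.trans hw) hw''c hv' hT hRT
        have hh2 := (hUF q T hq hT hRT).add hh
        have e : (q : ℚ) / T + (((v - q : ℕ) : ℚ)) / T = (v : ℚ) / T := by
          rw [Nat.cast_sub hq2]; ring
        rw [e] at hh2
        exact hh2.mono (by ring_nf; omega)
      · have hv' : v ≤ EE w'' := by
          have : v ≤ LL w' := by omega
          exact this.trans (LL_le_EE_next w')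
        exact (ih w'' v T (hw''le.trans hw) hw''c hv' hT hRT).mono (by ring_nf; omega)

/-- Combination of steps (5) and (6): a nonnegative rational `ρ` with `ρ * M` integral and
`ρ * R < L` is a sum of `8 J + 8 c + 1` unit fractions when `M` factors into `J` digits. -/
theorem digits_main (R w G : ℕ) (Good : ℕ → Prop) (hR : 0 < R)
    (hUF : ∀ q T : ℕ, Good q → 0 < T → R ∣ T → UF ((q : ℚ) / T) 8)
    (hD : ∀ w' : ℕ, w' ≤ w → 22 ≤ w' → ∀ v : ℕ, LL w' ≤ v → v ≤ EE w' →
      ∃ q : ℕ, Good q ∧ v < q + LL w' ∧ q ≤ v)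
    (hBase : ∀ v : ℕ, 0 < v → v ≤ EE 21 → v ∣ R)
    (hw22 : 22 ≤ w)
    (hGL : G * LL w ≤ EE w)
    (ms : List ℕ) (hms : ∀ m ∈ ms, 0 < m ∧ m ≤ G)
    {ρ : ℚ} (hρ0 : 0 ≤ ρ) (hρR : ρ * R < LL w)
    (hρM : ∃ z : ℤ, ρ * (ms.prod : ℕ) = z)
    (c : ℕ) (hc : ((w : ℚ) - 21) < (16 / 15 : ℚ) ^ c) :
    UF ρ (8 * ms.length + (8 * c + 1)) := by
  have hprod : 0 < ms.prod := by
    apply List.prod_pos
    intro m hm
    exact (hms m hm).1
  set N := R * ms.prod with hN
  have hNpos : 0 < N := Nat.mul_pos hR hprod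
  have hzN : ∃ z : ℤ, ρ * (N : ℕ) = z := by
    obtain ⟨z, hz⟩ := hρM
    refine ⟨z * R, ?_⟩
    rw [hN]; push_cast; push_cast at hz
    rw [← hz]; ring
  have hDL : ∀ v : ℕ, LL w ≤ v → v ≤ EE w → ∃ q : ℕ, Good q ∧ v < q + LL w ∧ q ≤ v :=
    hD w le_rfl hw22
  obtain ⟨ρ', h0, hlt, hU, z, hz⟩ := digits_iter R (LL w) (EE w) G Good hUF hDL hGL ms hms
    hρ0 hR dvd_rfl hρR N dvd_rfl hzN
  -- ρ' * N = z is a nonnegative integer < LL w
  have hNq : (0 : ℚ) < (N : ℕ) := by exact_mod_cast hNpos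
  have hz0 : 0 ≤ z := by
    have : (0 : ℚ) ≤ z := by rw [← hz]; positivity
    exact_mod_cast this
  obtain ⟨v, rfl⟩ := Int.eq_ofNat_of_zero_le hz0
  have hv : v ≤ EE w := by
    have h1 : ((v : ℤ) : ℚ) < LL w := by rw [← hz]; exact hlt
    have h2 : v < LL w := by exact_mod_cast h1
    refine h2.le.trans ?_
    unfold LL EE
    exact Nat.pow_le_pow_right (by norm_num) (by omega)
  have hfin := final_chain R w Good hUF hD hBase c w v N le_rfl hc hv hNpos (Dvd.intro _ rfl)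
  have e : ρ' = (v : ℚ) / N := by
    rw [eq_div_iff hNq.ne', hz]; simp
  rw [← e] at hfin
  have := hU.add hfin
  have e2 : ρ - ρ' + ρ' = ρ := by ring
  rw [e2] at this
  exact this

/-- A `g`-smooth `M > g` has a divisor in `(g, g^2]`. -/
lemma exists_dvd_window (g M : ℕ) (hg : 1 ≤ g) (hM : g < M)
    (hs : ∀ p : ℕ, p.Prime → p ∣ M → p ≤ g) :
    ∃ d : ℕ, d ∣ M ∧ g < d ∧ d ≤ g ^ 2 := by
  classical
  have hex : ∃ d, d ∣ M ∧ g < d := ⟨M, dvd_rfl, hM⟩
  obtain ⟨d, ⟨hd1, hd2⟩, hmin⟩ : ∃ d, (d ∣ M ∧ g < d) ∧ ∀ m < d, ¬ (m ∣ M ∧ g < m) :=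
    ⟨Nat.find hex, Nat.find_spec hex, fun m hm => Nat.find_min hex hm⟩
  refine ⟨d, hd1, hd2, ?_⟩
  have hd1' : d ≠ 1 := by omega
  obtain ⟨p, hp, hpd⟩ := Nat.exists_prime_and_dvd hd1'
  obtain ⟨e, he⟩ := id hpd
  have hpg : p ≤ g := hs p hp (dvd_trans hpd hd1)
  have hdpos : 0 < d := by omega
  have he0 : 0 < e := by
    rcases Nat.eq_zero_or_pos e with h | h
    · rw [h] at he; omega
    · exact h
  have helt : e < d := by
    rw [he]
    have := hp.two_le
    nlinarith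
  have heg : e ≤ g := by
    by_contra hcon
    have hcon' : g < e := by omega
    exact hmin e helt ⟨dvd_trans (Dvd.intro_left p he.symm) hd1, hcon'⟩
  rw [he, pow_two]
  exact Nat.mul_le_mul hpg heg

/-- A `g`-smooth number factors into digits `≤ g^2`, with few digits. -/
lemma smooth_split (g : ℕ) (hg : 1 ≤ g) :
    ∀ M : ℕ, 0 < M → (∀ p : ℕ, p.Prime → p ∣ M → p ≤ g) →
      ∃ ms : List ℕ, (∀ m ∈ ms, 0 < m ∧ m ≤ g ^ 2) ∧ ms.prod = M ∧ g ^ ms.length ≤ M * g := by
  intro M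
  induction M using Nat.strong_induction_on with
  | _ M ih =>
    intro hM hs
    by_cases hle : M ≤ g ^ 2
    · refine ⟨[M], ?_, by simp, ?_⟩
      · intro m hm
        simp only [List.mem_singleton] at hm
        subst hm
        exact ⟨hM, hle⟩
      · simp only [List.length_singleton, pow_one]
        nlinarith
    · have hgM : g < M := by
        have : g ≤ g ^ 2 := by nlinarith
        omega
      obtain ⟨d, ⟨e, he⟩, hd1, hd2⟩ := exists_dvd_window g M hg hgM hs
      have hdpos : 0 < d := by omega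
      have hepos : 0 < e := by
        rcases Nat.eq_zero_or_pos e with h | h
        · rw [h] at he; omega
        · exact h
      have helt : e < M := by
        rw [he]
        have : 2 ≤ d := by
          have : 1 ≤ g := hg
          omega
        nlinarith
      obtain ⟨ms, h1, h2, h3⟩ := ih e helt hepos
        (fun p hp hpe => hs p hp (hpe.trans (Dvd.intro_left d he.symm)))
      refine ⟨d :: ms, ?_, ?_, ?_⟩
      · intro m hm
        rcases List.mem_cons.mp hm with rfl | hm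
        · exact ⟨hdpos, hd2⟩
        · exact h1 m hm
      · simp [h2, he]
      · simp only [List.length_cons, pow_succ]
        have hgpos : 0 < g := by omega
        calc g ^ ms.length * g ≤ (e * g) * g := Nat.mul_le_mul_right g h3
          _ ≤ (e * d) * g := by
              apply Nat.mul_le_mul_right
              apply Nat.mul_le_mul_left
              omega
          _ = M * g := by rw [he]; ring

end Crest.Agent.Lib.Egyptian
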