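import Mathlib
import Crest.Agent.Lib.Egyptian.Digits
import Crest.Agent.Lib.Egyptian.Fourier
import Crest.Agent.Lib.Egyptian.ToolBad

/-!
# Row 19 (S0025), Tool part B: steps (3b), (3c) of finding #726.

If `q` is good and `q ≤ E^w`, then `q / T` is a sum of 8 unit fractions for every multiple `T`
of `R = n! * (∏ Gen)^2`.
-/

set_option autoImplicit false
set_option exponentiation.threshold 2000

open Finset

namespace Crest.Agent.Lib.Egyptian.ToolGood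

open ToolBad (D coll InF scale IsBad IsGood)

lemma sum_powerset_union {α : Type*} [AddCommMonoid α] (A B : Finset ℕ) (hAB : Disjoint A B)
    (g : Finset ℕ → α) :
    ∑ S ∈ (A ∪ B).powerset, g S = ∑ S₁ ∈ A.powerset, ∑ S₂ ∈ B.powerset, g (S₁ ∪ S₂) := by
  classical
  rw [← Finset.sum_product' (f := fun S₁ S₂ => g (S₁ ∪ S₂))]
  refine Finset.sum_nbij' (fun S => (S ∩ A, S ∩ B)) (fun p => p.1 ∪ p.2) ?_ ?_ ?_ ?_ ?_
  · intro S _
    simp only [Finset.mem_product, Finset.mem_powerset]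
    exact ⟨Finset.inter_subset_right, Finset.inter_subset_right⟩
  · intro p hp
    simp only [Finset.mem_product, Finset.mem_powerset] at hp
    simp only [Finset.mem_powerset]
    exact Finset.union_subset_union hp.1 hp.2
  · intro S hS
    simp only [Finset.mem_powerset] at hS
    simp only
    rw [← Finset.inter_union_distrib_left]
    exact Finset.inter_eq_left.2 hS
  · intro p hp
    simp only [Finset.mem_product, Finset.mem_powerset] at hp
    obtain ⟨p₁, p₂⟩ := p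
    simp only at hp ⊢
    ext x
    · simp only [Finset.mem_inter, Finset.mem_union]
      constructor
      · rintro ⟨h1 | h1, h2⟩
        · exact h1
        · exact absurd h2 (Finset.disjoint_right.1 hAB (hp.2 h1))
      · intro h
        exact ⟨Or.inl h, hp.1 h⟩
    · simp only [Finset.mem_inter, Finset.mem_union]
      constructor
      · rintro ⟨h1 | h1, h2⟩
        · exact absurd h2 (Finset.disjoint_left.1 hAB (hp.1 h1))
        · exact h1
      · intro h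
        exact ⟨Or.inr h, hp.2 h⟩
  · intro S hS
    simp only [Finset.mem_powerset] at hS
    simp only
    rw [← Finset.inter_union_distrib_left, Finset.inter_eq_left.2 hS]

lemma D_union {S₁ S₂ : Finset ℕ} (h : Disjoint S₁ S₂) : D (S₁ ∪ S₂) = D S₁ * D S₂ := by
  unfold D
  exact Finset.prod_union h

lemma D_pos_of_prime {S Gen : Finset ℕ} (hS : S ⊆ Gen) (hp : ∀ p ∈ Gen, p.Prime) : 0 < D S :=
  Finset.prod_pos fun p hpS => (hp p (hS hpS)).pos

lemma coprime_D {S Gen : Finset ℕ} (hS : S ⊆ Gen) (hp : ∀ p ∈ Gen, p.Prime) {q : ℕ}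
    (hq : ∀ p ∈ Gen, ¬ p ∣ q) : IsCoprime ((D S : ℕ) : ℤ) ((q : ℕ) : ℤ) := by
  rw [Nat.isCoprime_iff_coprime]
  unfold D
  exact Nat.Coprime.prod_left fun p hpS =>
    (Nat.Prime.coprime_iff_not_dvd (hp p (hS hpS))).2 (hq p (hS hpS))

/-- Pairs with equal values modulo `q` are diagonal pairs or collisions. -/
lemma collCount_le (q : ℕ) (G : Finset ℕ) :
    collCount G.powerset q (fun S => ((D S : ℕ) : ℤ)) ≤ G.powerset.card + coll q G := by
  classical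
  unfold collCount coll
  have hsub : (G.powerset ×ˢ G.powerset).filter (fun x => (q : ℤ) ∣ ((D x.1 : ℕ) : ℤ) - ((D x.2 : ℕ) : ℤ)) ⊆
      (G.powerset.image (fun S => (S, S))) ∪
        (G.powerset ×ˢ G.powerset).filter
          (fun x => x.1 ≠ x.2 ∧ ((q : ℤ) ∣ (D x.1 : ℤ) - (D x.2 : ℤ))) := by
    intro x hx
    obtain ⟨hx1, hx2⟩ := Finset.mem_filter.1 hx
    by_cases hne : x.1 = x.2
    · apply Finset.mem_union_left
      refine Finset.mem_image.2 ⟨x.1, (Finset.mem_product.1 hx1).1, ?_⟩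
      ext1
      · rfl
      · exact hne
    · apply Finset.mem_union_right
      exact Finset.mem_filter.2 ⟨hx1, hne, hx2⟩
  refine (Finset.card_le_card hsub).trans ((Finset.card_union_le _ _).trans ?_)
  exact Nat.add_le_add_right Finset.card_image_le _

/-- Step (3b): the Fourier bound at a non-bad modulus. -/
theorem fourier_bound (Gen G₁ G₂ : Finset ℕ) (hG₁ : G₁ ⊆ Gen) (hG₂ : G₂ ⊆ Gen)
    (hdisj : Disjoint G₁ G₂) (t : ℕ) (hc₁ : G₁.card = 14 * t) (hc₂ : G₂.card = 14 * t)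
    (hprime : ∀ p ∈ Gen, p.Prime) (q' : ℕ) (hq' : q' ≠ 0) (hcop : ∀ p ∈ Gen, ¬ p ∣ q')
    (h₁ : coll q' G₁ ≤ 2 ^ (14 * t)) (h₂ : coll q' G₂ ≤ 2 ^ (14 * t)) (y : ℤ)
    (hy : IsCoprime y (q' : ℤ)) :
    ‖∑ S ∈ Gen.powerset, Egyptian.ee q' (y * ((D S : ℕ) : ℤ))‖ ^ 2 ≤
      ((Gen.powerset.card : ℕ) : ℝ) ^ 2 * (4 * (q' : ℝ) / 2 ^ (28 * t)) := by
  classical
  set rest := Gen \ (G₁ ∪ G₂) with hrest
  have hsubU : G₁ ∪ G₂ ⊆ Gen := Finset.union_subset hG₁ hG₂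
  have hGen : rest ∪ (G₁ ∪ G₂) = Gen := Finset.sdiff_union_of_subset hsubU
  have hdrest : Disjoint rest (G₁ ∪ G₂) := Finset.sdiff_disjoint
  set τ : ℝ := 2 ^ (14 * t) with hτ
  have hτpos : 0 < τ := by positivity
  -- the collision counts
  have hN₁ : (collCount G₁.powerset q' (fun S => ((D S : ℕ) : ℤ)) : ℝ) ≤ 2 * τ := by
    have := collCount_le q' G₁
    rw [Finset.card_powerset, hc₁] at this
    have h3 : collCount G₁.powerset q' (fun S => ((D S : ℕ) : ℤ)) ≤ 2 * 2 ^ (14 * t) := by omega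
    have h4 : ((collCount G₁.powerset q' (fun S => ((D S : ℕ) : ℤ)) : ℕ) : ℝ) ≤
        ((2 * 2 ^ (14 * t) : ℕ) : ℝ) := by exact_mod_cast h3
    simpa [hτ] using h4
  have hN₂ : (collCount G₂.powerset q' (fun S => ((D S : ℕ) : ℤ)) : ℝ) ≤ 2 * τ := by
    have := collCount_le q' G₂
    rw [Finset.card_powerset, hc₂] at this
    have h3 : collCount G₂.powerset q' (fun S => ((D S : ℕ) : ℤ)) ≤ 2 * 2 ^ (14 * t) := by omega
    have h4 : ((collCount G₂.powerset q' (fun S => ((D S : ℕ) : ℤ)) : ℕ) : ℝ) ≤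
        ((2 * 2 ^ (14 * t) : ℕ) : ℝ) := by exact_mod_cast h3
    simpa [hτ] using h4
  -- decomposition of the sum
  set X : Finset ℕ → ℂ := fun S'' =>
    ∑ S₁ ∈ G₁.powerset, ∑ S₂ ∈ G₂.powerset,
      Egyptian.ee q' ((y * ((D S'' : ℕ) : ℤ)) * ((D S₁ : ℕ) : ℤ) * ((D S₂ : ℕ) : ℤ)) with hX
  have hdecomp : ∑ S ∈ Gen.powerset, Egyptian.ee q' (y * ((D S : ℕ) : ℤ)) =
      ∑ S'' ∈ rest.powerset, X S'' := by
    conv_lhs => rw [← hGen]
    rw [sum_powerset_union rest (G₁ ∪ G₂) hdrest]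
    refine Finset.sum_congr rfl fun S'' hS'' => ?_
    rw [sum_powerset_union G₁ G₂ hdisj]
    refine Finset.sum_congr rfl fun S₁ hS₁ => Finset.sum_congr rfl fun S₂ hS₂ => ?_
    have hS''r : S'' ⊆ rest := Finset.mem_powerset.1 hS''
    have hS₁' : S₁ ⊆ G₁ := Finset.mem_powerset.1 hS₁
    have hS₂' : S₂ ⊆ G₂ := Finset.mem_powerset.1 hS₂
    have hd12 : Disjoint S₁ S₂ := Finset.disjoint_of_subset_left hS₁'
      (Finset.disjoint_of_subset_right hS₂' hdisj)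
    have hd3 : Disjoint S'' (S₁ ∪ S₂) := Finset.disjoint_of_subset_left hS''r
      (Finset.disjoint_of_subset_right (Finset.union_subset_union hS₁' hS₂') hdrest)
    rw [D_union hd3, D_union hd12]
    congr 1
    push_cast
    ring
  -- bound for each piece
  have hXbd : ∀ S'' ∈ rest.powerset, ‖X S''‖ ^ 2 ≤ (q' : ℝ) * (2 * τ) * (2 * τ) := by
    intro S'' hS''
    have hS''G : S'' ⊆ Gen :=
      (Finset.mem_powerset.1 hS'').trans Finset.sdiff_subset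
    have hyy : IsCoprime (y * ((D S'' : ℕ) : ℤ)) ((q' : ℕ) : ℤ) :=
      IsCoprime.mul_left hy (coprime_D hS''G hprime hcop)
    have := Egyptian.bilinear G₁.powerset G₂.powerset q' hq' (y * ((D S'' : ℕ) : ℤ)) hyy
      (fun S => ((D S : ℕ) : ℤ)) (fun S => ((D S : ℕ) : ℤ))
    refine this.trans ?_
    have hq'nn : (0 : ℝ) ≤ q' := Nat.cast_nonneg _
    gcongr
  set M : ℝ := ((rest.powerset.card : ℕ) : ℝ) with hM
  have hsumbd : ‖∑ S'' ∈ rest.powerset, X S''‖ ^ 2 ≤ M * (M * ((q' : ℝ) * (2 * τ) * (2 * τ))) := by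
    have h1 : ‖∑ S'' ∈ rest.powerset, X S''‖ ≤ ∑ S'' ∈ rest.powerset, ‖X S''‖ := norm_sum_le _ _
    have h2 : (∑ S'' ∈ rest.powerset, ‖X S''‖) ^ 2 ≤
        (rest.powerset.card : ℝ) * ∑ S'' ∈ rest.powerset, ‖X S''‖ ^ 2 :=
      sq_sum_le_card_mul_sum_sq
    have h3 : ∑ S'' ∈ rest.powerset, ‖X S''‖ ^ 2 ≤ M * ((q' : ℝ) * (2 * τ) * (2 * τ)) := by
      refine (Finset.sum_le_sum hXbd).trans (le_of_eq ?_)
      simp [hM]
    calc ‖∑ S'' ∈ rest.powerset, X S''‖ ^ 2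
        ≤ (∑ S'' ∈ rest.powerset, ‖X S''‖) ^ 2 := by gcongr
      _ ≤ M * ∑ S'' ∈ rest.powerset, ‖X S''‖ ^ 2 := h2
      _ ≤ M * (M * ((q' : ℝ) * (2 * τ) * (2 * τ))) := by
        have : 0 ≤ M := Nat.cast_nonneg _
        gcongr
  rw [hdecomp]
  refine hsumbd.trans (le_of_eq ?_)
  -- cardinalities
  have hcard : Gen.card = rest.card + (14 * t + 14 * t) := by
    rw [← hGen, Finset.card_union_of_disjoint hdrest, Finset.card_union_of_disjoint hdisj, hc₁, hc₂]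
  rw [Finset.card_powerset, hcard, hM, Finset.card_powerset]
  have hτ2 : (2 : ℝ) ^ (28 * t) = τ ^ 2 := by
    rw [hτ, ← pow_mul]
    congr 1
    ring
  rw [hτ2]
  push_cast
  rw [pow_add, show (2 : ℝ) ^ (14 * t + 14 * t) = τ ^ 2 by rw [← hτ2]; congr 1; ring]
  field_simp
  ring

lemma term_aux (x B A : ℝ) (hx : 0 < x) (hB : 0 < B) (h : x ^ 7 ≤ A * B) :
    x * ((4 * x) ^ 4 / B) ≤ (2 ^ 8 * A) * (x ^ 2)⁻¹ := by
  have h1 : x * ((4 * x) ^ 4 / B) = (2 ^ 8 * (x ^ 7 / B)) * (x ^ 2)⁻¹ := by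
    field_simp
    ring
  rw [h1]
  have h2 : x ^ 7 / B ≤ A := (div_le_iff₀ hB).2 h
  have h3 : (0 : ℝ) ≤ (x ^ 2)⁻¹ := by positivity
  gcongr

/-- The numerical term bound. -/
lemma term_bound (q' : ℕ) (hq' : 0 < q') :
    (q' : ℝ) * (4 * (q' : ℝ) / 2 ^ (28 * scale q')) ^ 4 ≤ 2 ^ 120 * (((q' : ℕ) : ℝ) ^ 2)⁻¹ := by
  set t := scale q' with ht
  have hlt : q' < (2 ^ 16) ^ (t + 1) := Nat.lt_pow_succ_log_self (by norm_num) q'
  have hltR : (q' : ℝ) ≤ 2 ^ (16 * (t + 1)) := by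
    have h : (q' : ℝ) ≤ ((2 : ℝ) ^ 16) ^ (t + 1) := by exact_mod_cast hlt.le
    rwa [← pow_mul] at h
  have hq'R : (0 : ℝ) < q' := by exact_mod_cast hq'
  have h7 : (q' : ℝ) ^ 7 ≤ (2 ^ (16 * (t + 1))) ^ 7 := by gcongr
  have h8 : ((2 : ℝ) ^ (16 * (t + 1))) ^ 7 = 2 ^ 112 * 2 ^ (112 * t) := by
    rw [← pow_mul, ← pow_add]
    congr 1
    ring
  have hpos : (0 : ℝ) < 2 ^ (28 * t) := by positivity
  have h9 : ((2 : ℝ) ^ (28 * t)) ^ 4 = 2 ^ (112 * t) := by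
    rw [← pow_mul]
    congr 1
    ring
  rw [div_pow, h9]
  have hpos2 : (0 : ℝ) < 2 ^ (112 * t) := by positivity
  have h10 : (q' : ℝ) ^ 7 ≤ 2 ^ 112 * 2 ^ (112 * t) := by
    rw [← h8]
    exact h7
  have h11 := term_aux (q' : ℝ) (2 ^ (112 * t)) (2 ^ 112) hq'R hpos2 h10
  have h12 : (2 : ℝ) ^ 8 * 2 ^ 112 = 2 ^ 120 := by rw [← pow_add]
  rwa [h12] at h11

/-- Steps (3b) + count lemma: a representation of `q_r`. -/
theorem exists_rep (n w : ℕ) (hn : 2 ^ 400 ≤ n) (Gen : Finset ℕ) (hprime : ∀ p ∈ Gen, p.Prime)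
    (G₁ G₂ : ℕ → Finset ℕ) (hG₁ : ∀ t ≤ w, G₁ t ⊆ Gen ∧ (G₁ t).card = 14 * t)
    (hG₂ : ∀ t ≤ w, G₂ t ⊆ Gen ∧ (G₂ t).card = 14 * t)
    (hdisj : ∀ t ≤ w, Disjoint (G₁ t) (G₂ t)) (q : ℕ) (hq0 : q ≠ 0) (hqsf : Squarefree q)
    (hqw : q ≤ (2 ^ 16) ^ w) (hqp : ∀ p, p.Prime → p ∣ q → n < p ∧ p ∉ Gen)
    (hqb : ∀ d, d ∣ q → ¬ IsBad n w G₁ G₂ d) :
    ∃ S : Fin 8 → Finset ℕ, (∀ j, S j ⊆ Gen) ∧ (q : ℤ) ∣ ∑ j, ((D (S j) : ℕ) : ℤ) := by
  classical
  have hnpos : 0 < n := lt_of_lt_of_le (by positivity) hn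
  set β : ℕ → ℝ := fun q' => 4 * (q' : ℝ) / 2 ^ (28 * scale q') with hβdef
  have hU : (Gen.powerset).Nonempty := ⟨∅, Finset.empty_mem_powerset _⟩
  have hInF : ∀ q', q' ∣ q → 1 < q' → InF n q' := fun q' hd h1 =>
    ⟨h1, hqsf.squarefree_of_dvd hd, fun p hp hpd => (hqp p hp (hpd.trans hd)).1⟩
  have hscale : ∀ q', q' ∣ q → scale q' ≤ w := by
    intro q' hd
    have hle : q' ≤ (2 ^ 16) ^ w := (Nat.le_of_dvd (Nat.pos_of_ne_zero hq0) hd).trans hqw
    unfold scale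
    calc Nat.log (2 ^ 16) q' ≤ Nat.log (2 ^ 16) ((2 ^ 16) ^ w) := Nat.log_mono_right hle
      _ = w := Nat.log_pow (by norm_num) w
  have hβ : ∀ q', q' ∣ q → 1 < q' → ∀ y : ℤ, IsCoprime y (q' : ℤ) →
      ‖∑ S ∈ Gen.powerset, Egyptian.ee q' (y * ((D S : ℕ) : ℤ))‖ ^ 2 ≤
        ((Gen.powerset.card : ℕ) : ℝ) ^ 2 * β q' := by
    intro q' hd h1 y hy
    have hsc := hscale q' hd
    have hnb := hqb q' hd
    have hc : coll q' (G₁ (scale q')) ≤ 2 ^ (14 * scale q') ∧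
        coll q' (G₂ (scale q')) ≤ 2 ^ (14 * scale q') := by
      constructor
      · by_contra hcon
        exact hnb ⟨hInF q' hd h1, hsc, Or.inl (not_le.1 hcon)⟩
      · by_contra hcon
        exact hnb ⟨hInF q' hd h1, hsc, Or.inr (not_le.1 hcon)⟩
    refine fourier_bound Gen (G₁ (scale q')) (G₂ (scale q')) (hG₁ _ hsc).1 (hG₂ _ hsc).1
      (hdisj _ hsc) (scale q') (hG₁ _ hsc).2 (hG₂ _ hsc).2 hprime q' (by omega) ?_ hc.1 hc.2 y hy
    intro p hp hpd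
    obtain ⟨_, h2⟩ := hqp p (hprime p hp) (hpd.trans hd)
    exact h2 hp
  have hsum : ∑ q' ∈ q.divisors.filter (fun d => 1 < d), (q' : ℝ) * (β q') ^ 4 < 1 := by
    have h1 : ∀ q' ∈ q.divisors.filter (fun d => 1 < d),
        (q' : ℝ) * (β q') ^ 4 ≤ 2 ^ 120 * (((q' : ℕ) : ℝ) ^ 2)⁻¹ := fun q' hq' =>
      term_bound q' (by have := (Finset.mem_filter.1 hq').2; omega)
    refine lt_of_le_of_lt (Finset.sum_le_sum h1) ?_
    rw [← Finset.mul_sum]
    have hsub : q.divisors.filter (fun d => 1 < d) ⊆ Finset.Ioc n (max n q) := by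
      intro q' hq'
      obtain ⟨hd, h1'⟩ := Finset.mem_filter.1 hq'
      have hdvd := Nat.dvd_of_mem_divisors hd
      rw [Finset.mem_Ioc]
      constructor
      · obtain ⟨p, hp, hpd⟩ := Nat.exists_prime_and_dvd (by omega : q' ≠ 1)
        have := (hqp p hp (hpd.trans hdvd)).1
        exact lt_of_lt_of_le this (Nat.le_of_dvd (by omega) hpd)
      · exact le_max_of_le_right (Nat.le_of_dvd (Nat.pos_of_ne_zero hq0) hdvd)
    have h2 : ∑ q' ∈ q.divisors.filter (fun d => 1 < d), (((q' : ℕ) : ℝ) ^ 2)⁻¹ ≤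
        ∑ i ∈ Finset.Ioc n (max n q), (((i : ℕ) : ℝ) ^ 2)⁻¹ :=
      Finset.sum_le_sum_of_subset_of_nonneg hsub fun _ _ _ => by positivity
    have h3 := sum_Ioc_inv_sq_le_sub (α := ℝ) (k := n) (n := max n q) hnpos.ne' (le_max_left _ _)
    have h4 : ((max n q : ℕ) : ℝ)⁻¹ ≥ 0 := by positivity
    have h5 : (2 : ℝ) ^ 120 * (n : ℝ)⁻¹ < 1 := by
      have hnR : (2 : ℝ) ^ 400 ≤ n := by exact_mod_cast hn
      have hnpos' : (0 : ℝ) < n := by exact_mod_cast hnpos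
      rw [← div_eq_mul_inv, div_lt_one hnpos']
      refine lt_of_lt_of_le ?_ hnR
      norm_num
    calc (2 : ℝ) ^ 120 * ∑ q' ∈ q.divisors.filter (fun d => 1 < d), (((q' : ℕ) : ℝ) ^ 2)⁻¹
        ≤ 2 ^ 120 * (n : ℝ)⁻¹ := by
          apply mul_le_mul_of_nonneg_left _ (by positivity)
          linarith
      _ < 1 := h5
  obtain ⟨i, hi1, hi2⟩ := Egyptian.count_lemma Gen.powerset hU (fun S => ((D S : ℕ) : ℤ)) q hq0 0 β
    hβ hsum
  refine ⟨i, fun j => Finset.mem_powerset.1 (hi1 j), ?_⟩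
  simpa using hi2

/-- Sums of `k` reciprocals. -/
lemma uf_fin_sum (k : ℕ) (m : Fin k → ℕ) (hm : ∀ j, 0 < m j) :
    UF (∑ j, (1 : ℚ) / (m j : ℚ)) k := by
  refine ⟨List.ofFn m, by simp, ?_, ?_⟩
  · intro x hx
    obtain ⟨j, rfl⟩ := (List.mem_ofFn' _ _).1 hx
    exact hm j
  · rw [List.map_ofFn, List.sum_ofFn]
    rfl

/-- The key trick of #726: a congruence gives the unit fractions. -/
lemma uf_of_dvd_sum (q T₂ : ℕ) (hT : 0 < T₂) (d : Fin 8 → ℕ) (hd : ∀ j, 0 < d j)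
    (hdT : ∀ j, d j ∣ T₂) (hq : (q : ℤ) ∣ ∑ j, (d j : ℤ)) : UF ((q : ℚ) / T₂) 8 := by
  have hσpos : 0 < ∑ j, d j := by
    apply Finset.sum_pos (fun j _ => hd j)
    exact ⟨0, Finset.mem_univ _⟩
  have hq' : q ∣ ∑ j, d j := by
    have : (q : ℤ) ∣ ((∑ j, d j : ℕ) : ℤ) := by
      push_cast
      exact hq
    exact_mod_cast this
  obtain ⟨ν, hν⟩ := hq'
  have hνpos : 0 < ν := by
    rcases Nat.eq_zero_or_pos ν with h | h
    · subst h
      rw [mul_zero] at hν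
      omega
    · exact h
  have hqpos : 0 < q := by
    rcases Nat.eq_zero_or_pos q with h | h
    · subst h
      rw [zero_mul] at hν
      omega
    · exact h
  set m : Fin 8 → ℕ := fun j => (T₂ / d j) * ν with hm
  have hmpos : ∀ j, 0 < m j := fun j =>
    Nat.mul_pos (Nat.div_pos (Nat.le_of_dvd hT (hdT j)) (hd j)) hνpos
  have := uf_fin_sum 8 m hmpos
  convert this using 1
  have hterm : ∀ j, (1 : ℚ) / (m j : ℚ) = (d j : ℚ) / ((T₂ : ℚ) * ν) := by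
    intro j
    simp only [hm]
    push_cast
    rw [Nat.cast_div (hdT j) (by exact_mod_cast (hd j).ne')]
    have h1 : (d j : ℚ) ≠ 0 := by exact_mod_cast (hd j).ne'
    have h2 : (T₂ : ℚ) ≠ 0 := by exact_mod_cast hT.ne'
    have h3 : (ν : ℚ) ≠ 0 := by exact_mod_cast hνpos.ne'
    field_simp
  rw [Finset.sum_congr rfl (fun j _ => hterm j), ← Finset.sum_div]
  have hsumQ : ∑ j, (d j : ℚ) = (q : ℚ) * ν := by
    have : ((∑ j, d j : ℕ) : ℚ) = ((q * ν : ℕ) : ℚ) := by rw [hν]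
    push_cast at this
    exact this
  rw [hsumQ]
  have h2 : (T₂ : ℚ) ≠ 0 := by exact_mod_cast hT.ne'
  have h3 : (ν : ℚ) ≠ 0 := by exact_mod_cast hνpos.ne'
  field_simp

/-- **Steps (3b) + (3c)**: a good `q ≤ E^w` over a multiple of `R` is a sum of 8 unit fractions. -/
theorem good_UF (n w : ℕ) (hn : 2 ^ 400 ≤ n) (Gen : Finset ℕ) (hprime : ∀ p ∈ Gen, p.Prime)
    (G₁ G₂ : ℕ → Finset ℕ) (hG₁ : ∀ t ≤ w, G₁ t ⊆ Gen ∧ (G₁ t).card = 14 * t)
    (hG₂ : ∀ t ≤ w, G₂ t ⊆ Gen ∧ (G₂ t).card = 14 * t)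
    (hdisj : ∀ t ≤ w, Disjoint (G₁ t) (G₂ t)) (q T : ℕ) (hgood : IsGood n w G₁ G₂ q)
    (hqw : q ≤ (2 ^ 16) ^ w) (hT : 0 < T)
    (hRT : n.factorial * (∏ p ∈ Gen, p) ^ 2 ∣ T) : UF ((q : ℚ) / T) 8 := by
  classical
  obtain ⟨hsf, hnb⟩ := hgood
  have hq0 : q ≠ 0 := hsf.ne_zero
  set A := q.primeFactors with hA
  set pred : ℕ → Prop := fun p => p ≤ n ∨ p ∈ Gen with hpred
  set As := A.filter pred with hAs
  set Ar := A.filter (fun p => ¬ pred p) with hAr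
  set qs := ∏ p ∈ As, p with hqs
  set qr := ∏ p ∈ Ar, p with hqr
  have hqprod : qs * qr = q := by
    rw [hqs, hqr, hAs, hAr, Finset.prod_filter_mul_prod_filter_not, hA]
    exact Nat.prod_primeFactors_of_squarefree hsf
  have hArprime : ∀ p ∈ Ar, p.Prime := fun p hp =>
    Nat.prime_of_mem_primeFactors (Finset.mem_filter.1 hp).1
  have hAsprime : ∀ p ∈ As, p.Prime := fun p hp =>
    Nat.prime_of_mem_primeFactors (Finset.mem_filter.1 hp).1
  have hqr0 : qr ≠ 0 := by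
    intro h
    rw [h, mul_zero] at hqprod
    exact hq0 hqprod.symm
  have hqs0 : qs ≠ 0 := by
    intro h
    rw [h, zero_mul] at hqprod
    exact hq0 hqprod.symm
  have hqrdvd : qr ∣ q := ⟨qs, by rw [← hqprod, mul_comm]⟩
  -- prime factors of qr
  have hqrp : ∀ p, p.Prime → p ∣ qr → n < p ∧ p ∉ Gen := by
    intro p hp hpd
    have h1 : p ∈ Ar := by
      obtain ⟨a, ha, hpa⟩ := (Prime.dvd_finsetProd_iff hp.prime _).1 hpd
      have := (Nat.prime_dvd_prime_iff_eq hp (hArprime a ha)).1 hpa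
      rw [this]
      exact ha
    have h2 := (Finset.mem_filter.1 h1).2
    simp only [hpred, not_or] at h2
    exact ⟨not_le.1 h2.1, h2.2⟩
  -- the representation
  obtain ⟨S, hS1, hS2⟩ := exists_rep n w hn Gen hprime G₁ G₂ hG₁ hG₂ hdisj qr hqr0
    (hsf.squarefree_of_dvd hqrdvd) ((Nat.le_of_dvd (Nat.pos_of_ne_zero hq0) hqrdvd).trans hqw) hqrp
    (fun d hd => hnb d (hd.trans hqrdvd))
  -- qs divides n! * ∏ Gen
  have hqsdvd : qs ∣ n.factorial * ∏ p ∈ Gen, p := by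
    have h1 : qs = (∏ p ∈ As.filter (fun p => p ≤ n), p) * ∏ p ∈ As.filter (fun p => ¬ p ≤ n), p := by
      rw [Finset.prod_filter_mul_prod_filter_not]
    rw [h1]
    apply Nat.mul_dvd_mul
    · apply Finset.prod_primes_dvd
      · intro p hp
        exact (hAsprime p (Finset.mem_filter.1 hp).1).prime
      · intro p hp
        obtain ⟨hp1, hp2⟩ := Finset.mem_filter.1 hp
        exact Nat.dvd_factorial (hAsprime p hp1).pos hp2
    · apply Finset.prod_dvd_prod_of_subset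
      intro p hp
      obtain ⟨hp1, hp2⟩ := Finset.mem_filter.1 hp
      have := (Finset.mem_filter.1 hp1).2
      simp only [hpred] at this
      rcases this with h | h
      · exact absurd h hp2
      · exact h
  obtain ⟨c, hc⟩ := hqsdvd
  obtain ⟨X, hX⟩ := hRT
  set PP := ∏ p ∈ Gen, p with hPP
  set T₂ := c * PP * X with hT₂
  have hTeq : T = qs * T₂ := by
    rw [hX, hT₂, sq]
    calc n.factorial * (PP * PP) * X = (n.factorial * PP) * PP * X := by ring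
      _ = qs * c * PP * X := by rw [hc]
      _ = _ := by ring
  have hT₂pos : 0 < T₂ := by
    rcases Nat.eq_zero_or_pos T₂ with h | h
    · rw [h, mul_zero] at hTeq
      omega
    · exact h
  have hPPdvd : PP ∣ T₂ := ⟨c * X, by rw [hT₂]; ring⟩
  have hq_eq : (q : ℚ) / T = (qr : ℚ) / T₂ := by
    rw [hTeq, ← hqprod]
    have h1 : (qs : ℚ) ≠ 0 := by exact_mod_cast hqs0
    have h2 : (T₂ : ℚ) ≠ 0 := by exact_mod_cast hT₂pos.ne'
    push_cast
    field_simp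
  rw [hq_eq]
  refine uf_of_dvd_sum qr T₂ hT₂pos (fun j => D (S j)) (fun j => D_pos_of_prime (hS1 j) hprime) ?_ hS2
  intro j
  exact (Finset.prod_dvd_prod_of_subset _ _ _ (hS1 j)).trans hPPdvd

end Crest.Agent.Lib.Egyptian.ToolGood
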