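import Crest.Agent.Lib.Egyptian.Digits
import Crest.Agent.Lib.Egyptian.Rough
import Crest.Agent.Lib.Egyptian.Params
import Crest.Agent.Lib.Egyptian.ToolBad
import Crest.Agent.Lib.Egyptian.ToolGood

/-!
# S0025: the core statement at level `l`: assembly of rough removal, digits and the tool.
-/

set_option autoImplicit false
set_option exponentiation.threshold 2000

open Finset

namespace Crest.Agent.Lib.Egyptian

open Egyptian.Params ToolBad

/-- `a/b` as `a` copies of `1/b`. -/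
lemma UF.nat_div (a b : ℕ) (hb : 0 < b) : UF ((a : ℚ) / b) a := by
  induction a with
  | zero => simpa using UF.zero 0
  | succ a ih =>
    have := UF.add ih (UF.unit hb)
    convert this using 1
    push_cast
    ring

lemma sixteen_fifteen_pow (w l : ℕ) (hw : w = 4 * 2 ^ l) :
    ((w : ℚ) - 21) < (16 / 15 : ℚ) ^ (11 * (l + 2)) := by
  have h1 : (2 : ℚ) ≤ (16 / 15 : ℚ) ^ 11 := by norm_num
  have h2 : (2 : ℚ) ^ (l + 2) ≤ (16 / 15 : ℚ) ^ (11 * (l + 2)) := by
    rw [pow_mul]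
    exact pow_le_pow_left₀ (by norm_num) h1 _
  have h3 : (w : ℚ) = 2 ^ (l + 2) := by
    rw [hw]; push_cast; ring
  rw [h3]
  linarith

lemma count_arith (L l : ℕ) (h : L ≤ 17 * (4032 * (l + 1)) + 1) :
    8 + (8 * L + (8 * (11 * (l + 2)) + 1)) ≤ 550000 * (l + 1) := by
  omega

/-- The core statement: for `a^2 ≤ b` in the level `l`, `a/b` is a sum of `O(l)` unit fractions. -/
theorem core_step (l : ℕ) (hl : 400 ≤ l) (a b : ℕ) (hb1 : thr l ≤ b)
    (hb2 : b < thr (l + 1)) (ha : a ^ 2 ≤ b) :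
    UF ((a : ℚ) / b) (550000 * (l + 1)) := by
  classical
  have hbpos : 0 < b := lt_of_lt_of_le (by unfold thr; positivity) hb1
  by_cases h8 : a < 8
  · exact (UF.nat_div a b hbpos).mono (by nlinarith)
  rw [not_lt] at h8
  have hlz : l + 1 ≤ 2 ^ l := Nat.lt_two_pow_self
  have hl2 : 2 ^ 400 ≤ 2 ^ l := Nat.pow_le_pow_right (by norm_num) hl
  set z := 2 ^ l with hz
  set u := uu l with hu
  set g : ℕ := 2 ^ z with hg
  have hg2 : 2 ≤ g := by
    calc 2 = 2 ^ 1 := by norm_num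
      _ ≤ 2 ^ z := Nat.pow_le_pow_right (by norm_num) (by omega)
  have hz3 : 3 ≤ z := by
    have : (3 : ℕ) ≤ 2 ^ 400 := by norm_num
    omega
  have hcond : 4 ^ 4 * (4 * u * z) ^ (8 * u) < 2 ^ z := rough_cond l (by omega)
  have hu0 : 0 < u := by rw [hu]; unfold uu; omega
  have h4u : 4 * u * z ≤ 2 ^ z := by
    have h1 : 0 < 4 * u * z := by positivity
    have h2 : 4 * u * z ≤ (4 * u * z) ^ (8 * u) := Nat.le_self_pow (by omega) _
    have h3 : (4 * u * z) ^ (8 * u) ≤ 4 ^ 4 * (4 * u * z) ^ (8 * u) :=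
      Nat.le_mul_of_pos_left _ (by norm_num)
    omega
  have hbg : b ≤ (2 ^ z) ^ u := le_gg_pow l b hb2
  obtain ⟨ρ, M, hρ0, hρa, hM0, hMle, hMsm, hρM, hρUF⟩ := rough_step z u a b hz3 h4u hbpos hbg h8 hcond
  -- the tool parameters
  set n := nn l with hn
  set w := ww l with hw
  have hnw : n = 14 * w := nn_eq l
  have hwz : w = 4 * z := rfl
  have hn400 : 2 ^ 400 ≤ n := by
    rw [hn]; unfold nn
    calc 2 ^ 400 ≤ 2 ^ l := hl2
      _ ≤ 56 * 2 ^ l := Nat.le_mul_of_pos_left _ (by norm_num)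
  have hn64 : 64 ≤ n := le_trans (by norm_num) hn400
  obtain ⟨P₁, P₂, hdisj, hc1, hc2, hprimes⟩ := Crest.Agent.Egyptian.exists_generators n hn64
  have hG₁ex : ∀ t : ℕ, ∃ G : Finset ℕ, t ≤ w → G ⊆ P₁ ∧ G.card = 14 * t := by
    intro t
    by_cases ht : t ≤ w
    · obtain ⟨G, hG, hGc⟩ := Finset.exists_subset_card_eq (s := P₁) (n := 14 * t) (by omega)
      exact ⟨G, fun _ => ⟨hG, hGc⟩⟩
    · exact ⟨∅, fun h => absurd h ht⟩
  have hG₂ex : ∀ t : ℕ, ∃ G : Finset ℕ, t ≤ w → G ⊆ P₂ ∧ G.card = 14 * t := by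
    intro t
    by_cases ht : t ≤ w
    · obtain ⟨G, hG, hGc⟩ := Finset.exists_subset_card_eq (s := P₂) (n := 14 * t) (by omega)
      exact ⟨G, fun _ => ⟨hG, hGc⟩⟩
    · exact ⟨∅, fun h => absurd h ht⟩
  choose G₁ hG₁ using hG₁ex
  choose G₂ hG₂ using hG₂ex
  set Gen := P₁ ∪ P₂ with hGen
  set R : ℕ := n.factorial * (∏ p ∈ Gen, p) ^ 2 with hR
  have hGencard : Gen.card = 2 * n := by
    rw [hGen, card_union_of_disjoint hdisj]; omega
  have hRle : R ≤ n ^ (9 * n) :=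
    Crest.Agent.Egyptian.factorial_mul_prod_sq_le n Gen hGencard (fun p hp => (hprimes p hp).2.2)
  have hR0 : 0 < R := by
    apply Nat.mul_pos (Nat.factorial_pos n)
    apply pow_pos
    apply prod_pos
    intro p hp
    exact (hprimes p hp).1.pos
  have hRsq : R ^ 2 ≤ b := by
    calc R ^ 2 ≤ (n ^ (9 * n)) ^ 2 := Nat.pow_le_pow_left hRle 2
      _ = n ^ (18 * n) := by rw [← pow_mul]; congr 1; ring
      _ ≤ thr l := nn_pow_le_thr l (by omega)
      _ ≤ b := hb1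
  have haR : a * R ≤ b := by
    have h1 : (a * R) ^ 2 ≤ b ^ 2 := by
      rw [mul_pow, sq b]
      exact Nat.mul_le_mul ha hRsq
    exact (Nat.pow_le_pow_iff_left (by norm_num)).mp h1
  let Good : ℕ → Prop := fun q => IsGood n w G₁ G₂ q ∧ q ≤ (2 ^ 16) ^ w
  have hE : ∀ x, EE x = (2 ^ 16) ^ x := fun x => by unfold EE; rw [pow_mul]
  have hUF : ∀ q T : ℕ, Good q → 0 < T → R ∣ T → UF ((q : ℚ) / T) 8 := by
    intro q T hq hT hRT
    refine ToolGood.good_UF n w hn400 Gen (fun p hp => (hprimes p hp).1) G₁ G₂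
      (fun t ht => ⟨((hG₁ t ht).1).trans subset_union_left, (hG₁ t ht).2⟩)
      (fun t ht => ⟨((hG₂ t ht).1).trans subset_union_right, (hG₂ t ht).2⟩)
      (fun t ht => disjoint_of_subset_left (hG₁ t ht).1 (disjoint_of_subset_right (hG₂ t ht).1 hdisj))
      q T hq.1 hq.2 hT hRT
  have hprP₁ : ∀ t ≤ w, ∀ p ∈ G₁ t, p.Prime ∧ p ≤ n ^ 2 := fun t ht p hp => by
    have := hprimes p (mem_union_left _ ((hG₁ t ht).1 hp))
    exact ⟨this.1, this.2.2⟩
  have hprP₂ : ∀ t ≤ w, ∀ p ∈ G₂ t, p.Prime ∧ p ≤ n ^ 2 := fun t ht p hp => by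
    have := hprimes p (mem_union_right _ ((hG₂ t ht).1 hp))
    exact ⟨this.1, this.2.2⟩
  have hD : ∀ w' : ℕ, w' ≤ w → 22 ≤ w' → ∀ v : ℕ, LL w' ≤ v → v ≤ EE w' →
      ∃ q : ℕ, Good q ∧ v < q + LL w' ∧ q ≤ v := by
    intro w' hw' _ v hv1 hv2
    obtain ⟨q, h1, h2, h3⟩ := exists_isGood n w hn400 G₁ G₂
      (fun t ht => ⟨hprP₁ t ht, (hG₁ t ht).2⟩) (fun t ht => ⟨hprP₂ t ht, (hG₂ t ht).2⟩)
      w' v (by rw [← hE]; exact hv2) hv1
    refine ⟨q, ⟨h3, ?_⟩, ?_, h2⟩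
    · calc q ≤ v := h2
        _ ≤ (2 ^ 16) ^ w' := by rw [← hE]; exact hv2
        _ ≤ (2 ^ 16) ^ w := Nat.pow_le_pow_right (by norm_num) hw'
    · unfold LL at hv1 ⊢
      omega
  have hBase : ∀ v : ℕ, 0 < v → v ≤ EE 21 → v ∣ R := by
    intro v hv0 hv
    have hvn : v ≤ n := by
      have : EE 21 ≤ 2 ^ 400 := by unfold EE; norm_num
      omega
    exact (Nat.dvd_factorial hv0 hvn).mul_right _
  have hw22 : 22 ≤ w := by omega
  have hGL : g ^ 2 * LL w ≤ EE w := by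
    have := gl_le_q l (by omega)
    rw [hE]
    unfold LL
    exact this
  obtain ⟨ms, hms, hmsprod, hmslen⟩ := smooth_split g (by omega) M hM0 hMsm
  have hρR : ρ * R < LL w := by
    have hbQ : (0 : ℚ) < b := by exact_mod_cast hbpos
    have h1 : ρ * R ≤ (a : ℚ) / b * R := mul_le_mul_of_nonneg_right hρa (by positivity)
    have h2 : (a : ℚ) / b * R ≤ 1 := by
      rw [div_mul_eq_mul_div, div_le_one hbQ]
      exact_mod_cast haR
    have h3 : (1 : ℚ) < (LL w : ℚ) := by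
      unfold LL
      push_cast
      exact one_lt_pow₀ (by norm_num) (by omega)
    linarith
  have hρM' : ∃ k : ℤ, ρ * (ms.prod : ℕ) = k := by
    rw [hmsprod]; exact hρM
  have hdig := digits_main R w (g ^ 2) Good hR0 hUF hD hBase hw22 hGL ms hms hρ0 hρR hρM'
    (11 * (l + 2)) (sixteen_fifteen_pow w l hwz)
  have hlen : ms.length ≤ 17 * u + 1 := by
    have h1 : g ^ ms.length ≤ g ^ (17 * u + 1) := by
      calc g ^ ms.length ≤ M * g := hmslen
        _ ≤ (b * (g ^ (2 * u)) ^ 8) * g := Nat.mul_le_mul_right _ hMle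
        _ ≤ (g ^ u * (g ^ (2 * u)) ^ 8) * g := by
            apply Nat.mul_le_mul_right
            exact Nat.mul_le_mul_right _ hbg
        _ = g ^ (17 * u + 1) := by
            have key : ∀ g' : ℕ, (g' ^ u * (g' ^ (2 * u)) ^ 8) * g' = g' ^ (17 * u + 1) := by
              intro g'; ring
            exact key g
    exact (Nat.pow_le_pow_iff_right (by omega)).mp h1
  have hsum := UF.add hρUF hdig
  have e : (a : ℚ) / b - ρ + ρ = (a : ℚ) / b := by ring
  rw [e] at hsum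
  apply hsum.mono
  rw [hu] at hlen
  unfold uu at hlen
  exact count_arith _ _ hlen

end Crest.Agent.Lib.Egyptian
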