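import Crest.Agent.Lib.Egyptian.Core

/-!
# S0025: cleanup (step 0), greedy (step 1), the final inequality (step 7).
-/

set_option autoImplicit false

open Finset

namespace Crest.Agent.Lib.Egyptian

open Egyptian.Params

/-- The identity behind the odd case of the cleanup. -/
lemma two_div_odd (m c : ℕ) (hm : m = 2 * c + 1) (hc : 0 < c) :
    (1 : ℚ) / m + 1 / m = 1 / ((c + 1 : ℕ) : ℚ) + 1 / ((m * (c + 1) : ℕ) : ℚ) := by
  subst hm
  push_cast
  have h1 : (2 * (c : ℚ) + 1) ≠ 0 := by positivity
  have h2 : ((c : ℚ) + 1) ≠ 0 := by positivity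
  field_simp
  ring

/-- **Step (0), cleanup.** -/
theorem cleanup : ∀ (k : ℕ) (l : List ℕ), l.length ≤ k → (∀ n ∈ l, 0 < n) →
    (l.map (fun n : ℕ => (1 : ℚ) / n)).sum < 1 →
    ∃ S : Finset ℕ, (∀ n ∈ S, 2 ≤ n) ∧ S.card ≤ k ∧
      ∑ n ∈ S, (1 : ℚ) / n = (l.map (fun n : ℕ => (1 : ℚ) / n)).sum := by
  intro k
  induction k with
  | zero =>
    intro l hl _ _
    have : l = [] := List.length_eq_zero_iff.mp (by omega)
    subst this
    exact ⟨∅, by simp, by simp, by simp⟩
  | succ k ih =>
    -- inner induction on the head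
    have inner : ∀ (h : ℕ) (rest : List ℕ), rest.length ≤ k → 0 < h → (∀ n ∈ rest, 0 < n) →
        ((h :: rest).map (fun n : ℕ => (1 : ℚ) / n)).sum < 1 →
        ∃ S : Finset ℕ, (∀ n ∈ S, 2 ≤ n) ∧ S.card ≤ k + 1 ∧
          ∑ n ∈ S, (1 : ℚ) / n = ((h :: rest).map (fun n : ℕ => (1 : ℚ) / n)).sum := by
      intro h
      induction h using Nat.strong_induction_on with
      | _ h ihh =>
        intro rest hlen hh hpos hsum
        simp only [List.map_cons, List.sum_cons] at hsum ⊢
        have hrestnn : 0 ≤ (rest.map (fun n : ℕ => (1 : ℚ) / n)).sum := by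
          apply List.sum_nonneg
          intro x hx
          obtain ⟨n, _, rfl⟩ := List.mem_map.mp hx
          positivity
        have hh2 : 2 ≤ h := by
          by_contra hc
          have : h = 1 := by omega
          subst this
          rw [Nat.cast_one, div_one] at hsum
          linarith
        have hhnn : (0 : ℚ) < (1 : ℚ) / h := by positivity
        obtain ⟨S', hS'2, hS'c, hS's⟩ := ih rest hlen hpos (by linarith)
        by_cases hmem : h ∈ S'
        · -- collision
          obtain ⟨S'', hS'', rfl⟩ : ∃ S'' : Finset ℕ, h ∉ S'' ∧ S' = insert h S'' :=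
            ⟨S'.erase h, notMem_erase _ _, (insert_erase hmem).symm⟩
          rw [card_insert_of_notMem hS''] at hS'c
          rw [sum_insert hS''] at hS's
          have hS''sum : ∑ n ∈ S'', (1 : ℚ) / n = ∑ n ∈ S''.toList.toFinset, (1 : ℚ) / n := by
            rw [toList_toFinset]
          have hlist : (S''.toList.map (fun n : ℕ => (1 : ℚ) / n)).sum = ∑ n ∈ S'', (1 : ℚ) / n :=
            sum_map_toList _ _
          have hS''pos : ∀ n ∈ S''.toList, 0 < n := fun n hn => by
            have := hS'2 n (mem_insert_of_mem (mem_toList.mp hn))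
            omega
          rcases Nat.even_or_odd' h with ⟨c, hc | hc⟩
          · -- even
            have hc0 : 0 < c := by omega
            have hcQ : (c : ℚ) ≠ 0 := by positivity
            have e : (1 : ℚ) / h + (1 : ℚ) / h = 1 / c := by
              rw [hc]; push_cast; field_simp; norm_num
            obtain ⟨S, h1, h2, h3⟩ := ih (c :: S''.toList) (by simp; omega)
              (by
                intro n hn
                rcases List.mem_cons.mp hn with rfl | hn
                · exact hc0
                · exact hS''pos n hn)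
              (by
                simp only [List.map_cons, List.sum_cons]
                rw [hlist, ← e]
                linarith)
            refine ⟨S, h1, by omega, ?_⟩
            rw [h3]
            simp only [List.map_cons, List.sum_cons]
            rw [hlist, ← hS's, ← e]
            ring
          · -- odd
            have hc0 : 0 < c := by omega
            have e := two_div_odd h c hc hc0
            have hlt : c + 1 < h := by omega
            have hmpos : 0 < h * (c + 1) := by positivity
            obtain ⟨S, h1, h2, h3⟩ := ihh (c + 1) hlt (h * (c + 1) :: S''.toList)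
              (by simp; omega) (by omega)
              (by
                intro n hn
                rcases List.mem_cons.mp hn with rfl | hn
                · exact hmpos
                · exact hS''pos n hn)
              (by
                simp only [List.map_cons, List.sum_cons]
                rw [hlist]
                have : (1 : ℚ) / ((c + 1 : ℕ) : ℚ) + (1 / ((h * (c + 1) : ℕ) : ℚ) +
                    ∑ n ∈ S'', (1 : ℚ) / n) = (1 : ℚ) / h + (rest.map (fun n : ℕ => (1 : ℚ) / n)).sum := by
                  rw [← hS's, ← add_assoc, ← e]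
                  ring
                rw [this]
                exact hsum)
            refine ⟨S, h1, h2, ?_⟩
            rw [h3]
            simp only [List.map_cons, List.sum_cons]
            rw [hlist, ← hS's, ← add_assoc, ← e]
            ring
        · refine ⟨insert h S', ?_, ?_, ?_⟩
          · intro n hn
            rcases mem_insert.mp hn with rfl | hn
            · exact hh2
            · exact hS'2 n hn
          · rw [card_insert_of_notMem hmem]; omega
          · rw [sum_insert hmem, hS's]
    intro l hl hpos hsum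
    cases l with
    | nil => exact ⟨∅, by simp, by simp, by simp⟩
    | cons h rest =>
      exact inner h rest (by simpa using hl) (hpos h (by simp))
        (fun n hn => hpos n (by simp [hn])) hsum

/-- From `UF` to the finset form. -/
theorem finset_of_UF {r : ℚ} {k : ℕ} (h : UF r k) (hr : r < 1) :
    ∃ S : Finset ℕ, (∀ n ∈ S, 2 ≤ n) ∧ S.card ≤ k ∧ ∑ n ∈ S, (1 : ℚ) / n = r := by
  obtain ⟨l, h1, h2, h3⟩ := h
  obtain ⟨S, hS1, hS2, hS3⟩ := cleanup k l h1 h2 (by rw [h3]; exact hr)
  exact ⟨S, hS1, hS2, by rw [hS3, h3]⟩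

/-- One greedy step. -/
lemma greedy_step (a b : ℕ) (ha : 0 < a) (hab : a < b) :
    ∃ n : ℕ, 2 ≤ n ∧ (n - 1) * a < b ∧ b ≤ n * a ∧ (b < a ^ 2 → n ≤ a) := by
  refine ⟨(b + a - 1) / a, ?_, ?_, ?_, ?_⟩
  · rw [Nat.le_div_iff_mul_le ha]
    omega
  · have h1 : (b + a - 1) / a * a ≤ b + a - 1 := Nat.div_mul_le_self _ _
    have h2 : ((b + a - 1) / a - 1) * a = (b + a - 1) / a * a - a := by
      rw [Nat.sub_mul, one_mul]
    rw [h2]
    omega
  · have h1 : b + a - 1 < ((b + a - 1) / a + 1) * a := by
      rw [mul_comm]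
      exact Nat.lt_mul_div_succ _ ha
    rw [add_mul, one_mul] at h1
    omega
  · intro h
    have h2 : b + a - 1 < a * (a + 1) := by
      rw [sq] at h
      rw [mul_add, mul_one]
      omega
    have h3 := Nat.div_lt_of_lt_mul h2
    omega

/-- The iteration of greedy with a doubly exponential decay. -/
lemma greedy_iter (A : ℕ) : ∀ (s a b x : ℕ), 0 < b → 0 < x → a * x < b → a ≤ x ^ (2 ^ s) → a ≤ A →
    ∃ a' b' : ℕ, a' ^ 2 ≤ b' ∧ b ≤ b' ∧ b' ≤ b * (A + 1) ^ s ∧ a' * x ≤ b' ∧ a' ≤ a ∧
      UF ((a : ℚ) / b - (a' : ℚ) / b') s := by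
  intro s
  induction s with
  | zero =>
    intro a b x hb hx hax hle _
    refine ⟨a, b, ?_, le_refl _, by simp, hax.le, le_refl _, ?_⟩
    · simp only [pow_zero, pow_one] at hle
      have : a * a ≤ a * x := Nat.mul_le_mul_left _ hle
      rw [sq]; omega
    · simpa using UF.zero 0
  | succ s ih =>
    intro a b x hb hx hax hle hA
    by_cases hsq : a ^ 2 ≤ b
    · refine ⟨a, b, hsq, le_refl _, ?_, hax.le, le_refl _, ?_⟩
      · exact Nat.le_mul_of_pos_right _ (by positivity)
      · simpa using UF.zero (s + 1)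
    · rw [not_le] at hsq
      have ha0 : 0 < a := by
        rcases Nat.eq_zero_or_pos a with h | h
        · subst h; simp at hsq
        · exact h
      have hab : a < b := by
        have : a * 1 ≤ a * x := Nat.mul_le_mul_left _ hx
        omega
      obtain ⟨n, hn2, hn1, hn3, hn4⟩ := greedy_step a b ha0 hab
      have hnle := hn4 hsq
      have hxn : x < n := by
        by_contra hc
        rw [not_lt] at hc
        have : n * a ≤ x * a := Nat.mul_le_mul_right _ hc
        have : a * x = x * a := mul_comm _ _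
        omega
      set a₁ := n * a - b with ha₁
      set b₁ := n * b with hb₁
      have hb₁0 : 0 < b₁ := by positivity
      have ha₁lt : a₁ < a := by
        have h1 : (n - 1) * a = n * a - a := by rw [Nat.sub_mul, one_mul]
        have h2 : a ≤ n * a := Nat.le_mul_of_pos_left _ (by omega)
        omega
      have hax₁ : a₁ * (x * x) < b₁ := by
        have h1 : a₁ * (x * x) ≤ (a * x) * x := by
          calc a₁ * (x * x) ≤ a * (x * x) := Nat.mul_le_mul_right _ ha₁lt.le
            _ = (a * x) * x := by ring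
        have h2 : (a * x) * x < b * x := Nat.mul_lt_mul_of_pos_right hax hx
        have h3 : b * x ≤ b * n := Nat.mul_le_mul_left _ hxn.le
        have h4 : b * n = b₁ := mul_comm _ _
        omega
      have hle₁ : a₁ ≤ (x * x) ^ (2 ^ s) := by
        have : x ^ (2 ^ (s + 1)) = (x * x) ^ (2 ^ s) := by
          rw [← sq, ← pow_mul, pow_succ, mul_comm 2]
        rw [this] at hle
        omega
      obtain ⟨a', b', h1, h2, h3, h4, h5, h6⟩ := ih a₁ b₁ (x * x) hb₁0 (by positivity) hax₁ hle₁
        (by omega)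
      refine ⟨a', b', h1, ?_, ?_, ?_, by omega, ?_⟩
      · have : b ≤ b₁ := Nat.le_mul_of_pos_left _ (by omega)
        omega
      · calc b' ≤ b₁ * (A + 1) ^ s := h3
          _ = b * n * (A + 1) ^ s := by rw [hb₁, mul_comm n b]
          _ ≤ b * (A + 1) * (A + 1) ^ s := by
              apply Nat.mul_le_mul_right
              apply Nat.mul_le_mul_left
              omega
          _ = b * (A + 1) ^ (s + 1) := by ring
      · have hx1 : x ≤ x * x := Nat.le_mul_of_pos_left _ hx
        calc a' * x ≤ a' * (x * x) := Nat.mul_le_mul_left _ hx1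
          _ ≤ b' := h4
      · have hbQ : (0 : ℚ) < b := by exact_mod_cast hb
        have hnQ : (0 : ℚ) < n := by
          have : 0 < n := by omega
          exact_mod_cast this
        have hle' : b ≤ n * a := hn3
        have e : (a : ℚ) / b = 1 / ((n : ℕ) : ℚ) + (a₁ : ℚ) / b₁ := by
          rw [ha₁, hb₁]
          rw [Nat.cast_sub hle']
          push_cast
          field_simp
          ring
        have e2 : (a : ℚ) / b - (a' : ℚ) / b' =
            1 / ((n : ℕ) : ℚ) + ((a₁ : ℚ) / b₁ - (a' : ℚ) / b') := by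
          rw [e]; ring
        rw [e2, add_comm (s) 1]
        exact UF.add (UF.unit (by omega)) h6

/-- **Step (1), greedy.** -/
theorem greedy (a b : ℕ) (ha : 0 < a) (hab : a < b) :
    ∃ a' b' : ℕ, a' ^ 2 ≤ b' ∧ b ≤ b' ∧ b' ≤ b * (b + 1) ^ (Nat.clog 2 (Nat.clog 2 b) + 1) ∧
      UF ((a : ℚ) / b - (a' : ℚ) / b') (Nat.clog 2 (Nat.clog 2 b) + 1) := by
  set s := Nat.clog 2 (Nat.clog 2 b) with hs
  have hpow : a ≤ 2 ^ (2 ^ s) := by
    have h1 : b ≤ 2 ^ Nat.clog 2 b := Nat.le_pow_clog (by norm_num) b
    have h2 : Nat.clog 2 b ≤ 2 ^ s := Nat.le_pow_clog (by norm_num) _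
    have h3 : 2 ^ Nat.clog 2 b ≤ 2 ^ (2 ^ s) := Nat.pow_le_pow_right (by norm_num) h2
    omega
  have hb : 0 < b := by omega
  by_cases hsq : a ^ 2 ≤ b
  · refine ⟨a, b, hsq, le_refl _, ?_, ?_⟩
    · exact Nat.le_mul_of_pos_right _ (by positivity)
    · simpa using UF.zero (s + 1)
  · rw [not_le] at hsq
    obtain ⟨n, hn2, hn1, hn3, hn4⟩ := greedy_step a b ha hab
    have hnle := hn4 hsq
    set a₁ := n * a - b with ha₁
    set b₁ := n * b with hb₁
    have hb₁0 : 0 < b₁ := by positivity
    have ha₁lt : a₁ < a := by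
      have h1 : (n - 1) * a = n * a - a := by rw [Nat.sub_mul, one_mul]
      have h2 : a ≤ n * a := Nat.le_mul_of_pos_left _ (by omega)
      omega
    have hax₁ : a₁ * 2 < b₁ := by
      have h1 : a₁ * 2 < b * 2 := by omega
      have h2 : b * 2 ≤ b * n := Nat.mul_le_mul_left _ hn2
      have h4 : b * n = b₁ := mul_comm _ _
      omega
    obtain ⟨a', b', h1, h2, h3, _, _, h6⟩ := greedy_iter b s a₁ b₁ 2 hb₁0 (by norm_num) hax₁
      (by omega) (by omega)
    refine ⟨a', b', h1, ?_, ?_, ?_⟩
    · have : b ≤ b₁ := Nat.le_mul_of_pos_left _ (by omega)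
      omega
    · calc b' ≤ b₁ * (b + 1) ^ s := h3
        _ = b * n * (b + 1) ^ s := by rw [hb₁, mul_comm n b]
        _ ≤ b * (b + 1) * (b + 1) ^ s := by
            apply Nat.mul_le_mul_right
            apply Nat.mul_le_mul_left
            omega
        _ = b * (b + 1) ^ (s + 1) := by ring
    · have hbQ : (0 : ℚ) < b := by exact_mod_cast hb
      have hnQ : (0 : ℚ) < n := by
        have : 0 < n := by omega
        exact_mod_cast this
      have e : (a : ℚ) / b = 1 / ((n : ℕ) : ℚ) + (a₁ : ℚ) / b₁ := by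
        rw [ha₁, hb₁, Nat.cast_sub hn3]
        push_cast
        field_simp
        ring
      have e2 : (a : ℚ) / b - (a' : ℚ) / b' =
          1 / ((n : ℕ) : ℚ) + ((a₁ : ℚ) / b₁ - (a' : ℚ) / b') := by
        rw [e]; ring
      rw [e2, add_comm s 1]
      exact UF.add (UF.unit (by omega)) h6

lemma two_pow_24_le_thr (l : ℕ) (hl : 1 ≤ l) : 2 ^ 24 ≤ thr l := by
  unfold thr
  apply Nat.pow_le_pow_right (by norm_num)
  have h0 : 1 ≤ 2 ^ l := Nat.one_le_two_pow
  nlinarith

/-- The final real inequality. -/
lemma final_real (b s l b' : ℕ) (hb : 2 ^ 24 ≤ b) (hs : s = Nat.clog 2 (Nat.clog 2 b))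
    (hb' : b' ≤ b * (b + 1) ^ (s + 1)) (hthr : thr l ≤ b') (hl : 1 ≤ l) :
    ((s : ℝ) + 1 + 550000 * ((l : ℝ) + 1)) ≤ 3000000 * Real.log (Real.log (b : ℝ)) := by
  have hbR : ((2 : ℝ) ^ 24) ≤ (b : ℝ) := by exact_mod_cast hb
  have hb0 : (0 : ℝ) < (b : ℝ) := lt_of_lt_of_le (by positivity) hbR
  have hlog2a : (0.6931471803 : ℝ) < Real.log 2 := Real.log_two_gt_d9
  have hlog2b : Real.log 2 < 0.6931471808 := Real.log_two_lt_d9
  set L := Real.log (b : ℝ) with hL
  have hL16 : 16 ≤ L := by
    have h1 : Real.log ((2 : ℝ) ^ 24) ≤ L := Real.log_le_log (by positivity) hbR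
    rw [Real.log_pow] at h1
    push_cast at h1
    linarith
  set T := Real.log L with hT
  have hL0 : 0 < L := by linarith
  have hT1 : 1 ≤ T := by
    rw [hT, Real.le_log_iff_exp_le hL0]
    have := Real.exp_one_lt_d9
    linarith
  -- bound on `log L` in terms of `L`
  have hTL : 2 * T + 7 ≤ L := by
    have h1 : Real.log (L / 4) ≤ L / 4 - 1 := Real.log_le_sub_one_of_pos (by positivity)
    have h2 : Real.log (L / 4) = T - Real.log 4 := by
      rw [Real.log_div hL0.ne' (by norm_num)]
    have h3 : Real.log 4 = 2 * Real.log 2 := by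
      rw [show (4 : ℝ) = 2 ^ 2 by norm_num, Real.log_pow]
      norm_num
    rw [h2, h3] at h1
    linarith
  -- the first `clog`
  set m := Nat.clog 2 b with hm
  have hb1 : 1 < b := by
    have : 1 < 2 ^ 24 := by norm_num
    omega
  have hmL : (m : ℝ) ≤ 3 * L := by
    have hmpow : 2 ^ (m.pred) < b := Nat.pow_pred_clog_lt_self (by norm_num) hb1
    have hmpowR : ((2 : ℝ) ^ (m.pred)) ≤ (b : ℝ) := by exact_mod_cast hmpow.le
    have h1 : Real.log ((2 : ℝ) ^ (m.pred)) ≤ L := Real.log_le_log (by positivity) hmpowR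
    rw [Real.log_pow] at h1
    have h2 : (m : ℝ) ≤ (m.pred : ℝ) + 1 := by
      have : m ≤ m.pred + 1 := by
        cases m with
        | zero => simp
        | succ k => simp
      exact_mod_cast this
    have h3 : (m.pred : ℝ) * (2 / 3) ≤ (m.pred : ℝ) * Real.log 2 :=
      mul_le_mul_of_nonneg_left (by linarith) (by positivity)
    nlinarith
  have hs5 : (s : ℝ) ≤ 2 * T + 5 := by
    by_cases hm1 : 1 < m
    · have hspow : 2 ^ (s.pred) < m := by
        rw [hs]
        exact Nat.pow_pred_clog_lt_self (by norm_num) hm1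
      have hspowR : ((2 : ℝ) ^ (s.pred)) ≤ (m : ℝ) := by exact_mod_cast hspow.le
      have hm3L : ((2 : ℝ) ^ (s.pred)) ≤ 3 * L := hspowR.trans hmL
      have h1 : Real.log ((2 : ℝ) ^ (s.pred)) ≤ Real.log (3 * L) :=
        Real.log_le_log (by positivity) hm3L
      rw [Real.log_pow, Real.log_mul (by norm_num) hL0.ne'] at h1
      have h3le : Real.log 3 ≤ 2 := by
        have := Real.log_le_sub_one_of_pos (show (0 : ℝ) < 3 by norm_num)
        linarith
      have h2 : (s : ℝ) ≤ (s.pred : ℝ) + 1 := by
        have : s ≤ s.pred + 1 := by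
          cases s with
          | zero => simp
          | succ k => simp
        exact_mod_cast this
      have h3 : (s.pred : ℝ) * (2 / 3) ≤ (s.pred : ℝ) * Real.log 2 :=
        mul_le_mul_of_nonneg_left (by linarith) (by positivity)
      nlinarith
    · have hm2 : m ≤ 1 := by omega
      have hs0 : s = 0 := by
        rw [hs]
        exact Nat.clog_of_right_le_one hm2 2
      rw [hs0]
      push_cast
      linarith
  have hsL : (s : ℝ) + 2 ≤ L := by linarith
  -- the level
  have hlevel : (2 : ℝ) ^ l ≤ 2 * L ^ 2 := by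
    have h1 : ((thr l : ℕ) : ℝ) ≤ (b : ℝ) * ((b : ℝ) + 1) ^ (s + 1) := by
      have : thr l ≤ b * (b + 1) ^ (s + 1) := hthr.trans hb'
      exact_mod_cast this
    have h2 : ((thr l : ℕ) : ℝ) = (2 : ℝ) ^ (2016 * l * 2 ^ l) := by
      unfold thr; push_cast; ring
    rw [h2] at h1
    have h3 : Real.log ((2 : ℝ) ^ (2016 * l * 2 ^ l)) ≤
        Real.log ((b : ℝ) * ((b : ℝ) + 1) ^ (s + 1)) :=
      Real.log_le_log (by positivity) h1
    rw [Real.log_pow, Real.log_mul hb0.ne' (by positivity), Real.log_pow] at h3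
    have h4 : Real.log ((b : ℝ) + 1) ≤ 2 * L := by
      have : (b : ℝ) + 1 ≤ (b : ℝ) ^ 2 := by nlinarith
      have h5 := Real.log_le_log (by positivity) this
      rw [Real.log_pow] at h5
      push_cast at h5
      linarith
    have h5 : ((s : ℝ) + 1) * Real.log ((b : ℝ) + 1) ≤ ((s : ℝ) + 1) * (2 * L) :=
      mul_le_mul_of_nonneg_left h4 (by positivity)
    push_cast at h3
    have hl1 : (1 : ℝ) ≤ l := by exact_mod_cast hl
    have h6 : (2 : ℝ) ^ l ≤ 2016 * (l : ℝ) * 2 ^ l * Real.log 2 := by
      have h7 : (0 : ℝ) < 2 ^ l := by positivity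
      have h8 : (1 : ℝ) ≤ 2016 * (l : ℝ) * Real.log 2 := by nlinarith
      nlinarith
    have h9 : (2 : ℝ) ^ l ≤ (2 * (s : ℝ) + 3) * L := by nlinarith
    have h10 : (2 * (s : ℝ) + 3) * L ≤ (2 * L) * L := by
      apply mul_le_mul_of_nonneg_right _ hL0.le
      nlinarith
    nlinarith
  have hl3 : (l : ℝ) ≤ 3 * T + 1 := by
    have h1 : Real.log ((2 : ℝ) ^ l) ≤ Real.log (2 * L ^ 2) :=
      Real.log_le_log (by positivity) hlevel
    rw [Real.log_pow, Real.log_mul (by norm_num) (by positivity), Real.log_pow] at h1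
    push_cast at h1
    have h3 : ((l : ℝ) - 1) * Real.log 2 ≤ 2 * T := by nlinarith
    by_cases hcase : (l : ℝ) - 1 ≤ 0
    · linarith
    · rw [not_le] at hcase
      have h4 : ((l : ℝ) - 1) * (2 / 3) ≤ ((l : ℝ) - 1) * Real.log 2 :=
        mul_le_mul_of_nonneg_left (by linarith) hcase.le
      linarith
  linarith

end Crest.Agent.Lib.Egyptian
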